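import Vale.Agent.P207Z.Char.Alg.A

/-!
# P207: the algebra of the functional (block CH-C1a)
-/

set_option linter.all false

open Set Filter Topology Metric MeasureTheory Asymptotics
open scoped ContDiff

noncomputable section

namespace Vale.Agent.P207Z

open Vale.Agent.P207.N3 (JC)
open Lift

variable {E V G : Type} [NormedAddCommGroup E] [NormedSpace ℝ E] [FiniteDimensional ℝ E]
  [NormedAddCommGroup V] [NormedSpace ℝ V] [FiniteDimensional ℝ V]
  [NormedAddCommGroup G] [NormedSpace ℝ G] [FiniteDimensional ℝ G]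
  {m K : ℕ} {b : Module.Basis (Fin m) ℝ E} {iS : E →L[ℝ] V} {ψ : V → E} {bb : V → G} {w : E}

namespace AlgX

variable {K' : ℕ} {g g' : E → V → G} {L L' : E → Jet K V G →L[ℝ] ℝ} {y : E}

/-- the coordinates -/
def crd (b : Module.Basis (Fin m) ℝ E) (β : Fin m) : E →L[ℝ] ℝ :=
  LinearMap.toContinuousLinearMap (b.coord β)

theorem crd_apply (β : Fin m) (x : E) : crd b β x = b.repr x β := rfl

theorem sm_crd (hψ : ContDiff ℝ ∞ ψ) (w : E) (β : Fin m) :
    ContDiff ℝ ∞ fun p : E × V => b.repr (p.1 - w - ψ p.2) β :=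
  (crd b β).contDiff.comp ((contDiff_fst.sub contDiff_const).sub (hψ.comp contDiff_snd))

theorem Sj.mul (h : Sj g) (hψ : ContDiff ℝ ∞ ψ) (β : Fin m) (i : ℕ) :
    Sj fun w' z => ((b.repr (w' - w - ψ z) β) ^ i / (i.factorial : ℝ)) • g w' z :=
  (((sm_crd hψ w β).pow i).div_const _).smul h

theorem Sj.dmul (h : Sj g) (hψ : ContDiff ℝ ∞ ψ) (β : Fin m) (i : ℕ) :
    Sj fun w' z => (i * (b.repr (w' - w - ψ z) β) ^ (i - 1) / (i.factorial : ℝ)) • g w' z :=
  ((contDiff_const.mul ((sm_crd hψ w β).pow _)).div_const _).smul h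

theorem pd_mul (h : Sj g) (hψ : ContDiff ℝ ∞ ψ) (β γ : Fin m) (i : ℕ) :
    pd (b γ) (fun w' z => ((b.repr (w' - w - ψ z) β) ^ i / (i.factorial : ℝ)) • g w' z) =
      fun w' z => ((b.repr (w' - w - ψ z) β) ^ i / (i.factorial : ℝ)) • pd (b γ) g w' z +
        (if γ = β then i * (b.repr (w' - w - ψ z) β) ^ (i - 1) / (i.factorial : ℝ) else 0) •
          g w' z := by
  funext x z
  have h1 : HasFDerivAt (fun p : E × V => b.repr (p.1 - w - ψ p.2) β) _ (x, z) :=
    (crd b β).hasFDerivAt.comp (x, z) ((hasFDerivAt_fst.sub_const w).sub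
      ((hψ.differentiable (by simp) z).hasFDerivAt.comp (x, z) hasFDerivAt_snd))
  have h2 := (((h1.pow i).mul_const (i.factorial : ℝ)⁻¹).smul
    (h.differentiable (by simp) (x, z)).hasFDerivAt).fderiv
  refine (congrArg (fun A : E × V →L[ℝ] G => A (b γ, 0)) h2).trans ?_
  refine congrArg₂ (· + ·) (congrArg (fun c : ℝ => c • pd (b γ) g x z) (div_eq_mul_inv _ _).symm)
    (congrArg (fun c : ℝ => c • g x z) ?_)
  show (i.factorial : ℝ)⁻¹ * ((i • b.repr (x - w - ψ z) β ^ (i - 1)) *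
    b.repr (b γ - fderiv ℝ ψ z 0) β) = _
  rw [map_zero, sub_zero, b.repr_self, Finsupp.single_apply, nsmul_eq_mul]
  split_ifs
  · ring
  · ring

theorem op_DD (hψ : ContDiff ℝ ∞ ψ) (y : E) (bs : List (Fin m)) : ∀ {g : E → V → G}, Sj g →
    Op y (bs.length * K') fun L : E → Jet K V G →L[ℝ] ℝ => DD b ψ w (K' + 1) (opr iS L) bs g := by
  induction bs with
  | nil => exact fun h => (op_app h.jet.contDiffAt).mono (Nat.zero_le _)
  | cons β bs ih =>
    refine fun h => Op.sum _ fun i hi => ((ih (h.mul hψ β i)).it (b β) i).mono ?_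
    have := Finset.mem_range.1 hi
    rw [List.length_cons, add_mul, one_mul]
    omega

theorem sm_DD (hψ : ContDiff ℝ ∞ ψ) (hL : ContDiff ℝ ∞ L) (bs : List (Fin m)) (h : Sj g) :
    ContDiff ℝ ∞ (DD b ψ w (K' + 1) (opr iS L) bs g) :=
  contDiff_iff_contDiffAt.2 fun y => (op_DD hψ y bs h).sm hL.contDiffAt

theorem DD_congr (e : L =ᶠ[𝓝 y] L') (bs : List (Fin m)) : ∀ g : E → V → G,
    DD b ψ w K' (opr iS L) bs g =ᶠ[𝓝 y] DD b ψ w K' (opr iS L') bs g := by
  induction bs with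
  | nil => exact fun g => e.mono fun x hx => congrArg (fun A : Jet K V G →L[ℝ] ℝ => A _) hx
  | cons β bs ih =>
    intro g
    filter_upwards [(eventually_all_finset (Finset.range K')).2 fun i _ =>
      it_congr (ih fun w' z => ((b.repr (w' - w - ψ z) β) ^ i / (i.factorial : ℝ)) • g w' z)
        (b β) i] with x hx
    exact Finset.sum_congr rfl hx

theorem DD_addg (hψ : ContDiff ℝ ∞ ψ) (hL : ContDiff ℝ ∞ L) (bs : List (Fin m)) :
    ∀ {g g' : E → V → G}, Sj g → Sj g' →
      DD b ψ w (K' + 1) (opr iS L) bs (fun w' z => g w' z + g' w' z) = fun y =>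
        DD b ψ w (K' + 1) (opr iS L) bs g y + DD b ψ w (K' + 1) (opr iS L) bs g' y := by
  induction bs with
  | nil =>
    intro g g' h h'
    funext y
    exact (congrArg (L y) (jet_add (cda (h.slice y).contDiffAt K)
      (cda (h'.slice y).contDiffAt K))).trans (map_add _ _ _)
  | cons β bs ih =>
    intro g g' h h'
    funext y
    simp only [DD, smul_add]
    rw [← Finset.sum_add_distrib]
    refine Finset.sum_congr rfl fun i _ => ?_
    rw [ih (h.mul hψ β i) (h'.mul hψ β i),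
      it_add (sm_DD hψ hL bs (h.mul hψ β i)) (sm_DD hψ hL bs (h'.mul hψ β i))]

theorem DD_zero (hψ : ContDiff ℝ ∞ ψ) (L : E → Jet K V G →L[ℝ] ℝ) (bs : List (Fin m)) :
    ∀ {g : E → V → G}, Sj g → (∀ x, Flat K (g x) (iS x)) →
      DD b ψ w K' (opr iS L) bs g = fun _ => 0 := by
  induction bs with
  | nil =>
    intro g h h0
    funext y
    exact (congrArg (L y) ((flat_iff_jet (cda (h.slice y).contDiffAt K)).1 (h0 y))).trans
      (map_zero _)
  | cons β bs ih =>
    intro g h h0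
    funext y
    refine Finset.sum_eq_zero fun i _ => ?_
    rw [ih (h.mul hψ β i) fun x => (h0 x).bilin_right (ContinuousLinearMap.lsmul ℝ ℝ)
      ((Sj.slice (g := fun w' z => (b.repr (w' - w - ψ z) β) ^ i / (i.factorial : ℝ))
        (((sm_crd hψ w β).pow i).div_const _) x).continuous.continuousAt), it_zero]

theorem flat_mul (ha : Adm iS ψ bb w) (h : Sj g) (β : Fin m) {i : ℕ} (hi : K < i) (x : E) :
    Flat K (fun z => ((b.repr (x - w - ψ z) β) ^ i / (i.factorial : ℝ)) • g x z) (iS x) := by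
  have h1 := Sj.slice (g := fun w' z => b.repr (w' - w - ψ z) β) (sm_crd ha.sψ w β) x
  have h2 := (h1.differentiable (by simp) (iS x)).isBigO_sub
  simp only [ha.ax, sub_self, map_zero, Finsupp.zero_apply, sub_zero] at h2
  have h3 : Flat K (fun z => (b.repr (x - w - ψ z) β) ^ i) (iS x) :=
    (h2.norm_right.pow i).trans_isLittleO (isLittleO_pow_sub_pow_sub _ hi)
  have h4 := (h3.const_mul (i.factorial : ℝ)⁻¹).bilin_left (ContinuousLinearMap.lsmul ℝ ℝ)
    (h.slice x).continuous.continuousAt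
  simpa only [ContinuousLinearMap.lsmul_apply, div_eq_inv_mul] using h4

theorem DD_box (ha : Adm iS ψ bb w) (L : E → Jet K V G →L[ℝ] ℝ) (hK : K ≤ K')
    (bs : List (Fin m)) : ∀ {g : E → V → G}, Sj g →
      DD b ψ w (K' + 1) (opr iS L) bs g = DD b ψ w (K + 1) (opr iS L) bs g := by
  induction bs with
  | nil => exact fun _ => rfl
  | cons β bs ih =>
    intro g h
    funext y
    refine (Finset.sum_congr rfl fun i _ => by rw [ih (h.mul ha.sψ β i)]).trans
      (Finset.sum_subset (Finset.range_mono (by omega)) fun i _ hi => ?_).symm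
    rw [DD_zero ha.sψ L bs (h.mul ha.sψ β i)
      (flat_mul ha h β (by simpa [Nat.lt_succ_iff] using hi)), it_zero]

theorem DD_ev (ha : Adm iS ψ bb w) (h0 : ∀ᶠ x in 𝓝 y, ∀ l : V → G, ContDiff ℝ ∞ l →
    l (iS x) = 0 → L x (jet K l (iS x)) = 0) (bs : List (Fin m)) : ∀ {g : E → V → G}, Sj g →
      DD b ψ w (K' + 1) (opr iS L) bs g =ᶠ[𝓝 y] opr iS L g := by
  induction bs with
  | nil => exact fun _ => EventuallyEq.rfl
  | cons β bs ih =>
    intro g h
    have h1 : ∀ i ∈ Finset.range K', (dd (b β))^[i + 1] (DD b ψ w (K' + 1) (opr iS L) bs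
        fun w' z => ((b.repr (w' - w - ψ z) β) ^ (i + 1) / ((i + 1).factorial : ℝ)) • g w' z)
        =ᶠ[𝓝 y] fun _ => 0 := fun i _ => by
      rw [← it_zero (b β) (i + 1)]
      refine it_congr ((ih (h.mul ha.sψ β _)).trans (h0.mono fun x hx =>
        hx _ ((h.mul ha.sψ β _).slice x) ?_)) _ _
      simp [ha.ax]
    filter_upwards [(eventually_all_finset _).2 h1, ih h] with x h2 h3
    refine (Finset.sum_range_succ' _ _).trans ?_
    rw [Finset.sum_eq_zero h2, zero_add, ← h3]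
    simp

theorem DD_td (ha : Adm iS ψ bb w) (hL : ContDiff ℝ ∞ L) (γ : Fin m)
    (hT : ContDiff ℝ ∞ (td iS (b γ) L)) (bs : List (Fin m)) (hn : bs.Nodup) :
    ∀ {g : E → V → G}, Sj g → (fun y => DD b ψ w (K + 1 + 1) (opr iS (td iS (b γ) L)) bs g y +
      DD b ψ w (K + 1 + 1) (opr iS L) bs (pd (b γ) g) y) =
        if γ ∈ bs then fun _ => 0 else dd (b γ) (DD b ψ w (K + 1 + 1) (opr iS L) bs g) := by
  induction bs with
  | nil => exact fun h => funext fun y => td_opr hL h _ y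
  | cons β bs ih =>
    intro g h
    have hψ := ha.sψ
    obtain ⟨hβ, hn⟩ := List.nodup_cons.1 hn
    have m1 := h.mul (b := b) (w := w) hψ β
    have ih := fun i => ih hn (m1 i)
    have s1 := fun i => sm_DD (b := b) (iS := iS) (w := w) (K' := K + 1) hψ hT bs (m1 i)
    have s2 := fun i => sm_DD (b := b) (iS := iS) (w := w) (K' := K + 1) hψ hL bs
      ((h.pd (b γ)).mul (b := b) (w := w) hψ β i)
    have s3 := fun i => sm_DD (b := b) (iS := iS) (w := w) (K' := K + 1) hψ hL bs (m1 i)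
    funext y
    refine Finset.sum_add_distrib.symm.trans ?_
    simp only [pd_mul h hψ] at ih
    by_cases e : γ = β
    · subst e
      simp only [if_true, hβ, if_false] at ih
      rw [if_pos List.mem_cons_self]
      have s4 := fun i => sm_DD (b := b) (iS := iS) (w := w) (K' := K + 1) hψ hL bs
        (h.dmul (b := b) (w := w) hψ γ i)
      have h1 := Finset.sum_range_sub (fun i => (dd (b γ))^[i] (DD b ψ w (K + 1 + 1) (opr iS L) bs
        fun w' z => (i * (b.repr (w' - w - ψ z) γ) ^ (i - 1) / (i.factorial : ℝ)) • g w' z) y)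
        (K + 1 + 1)
      have h2 : ∀ i : ℕ, (fun w' z => (((i + 1 : ℕ) : ℝ) * (b.repr (w' - w - ψ z) γ) ^ (i + 1 - 1) /
          ((i + 1).factorial : ℝ)) • g w' z) =
          fun w' z => ((b.repr (w' - w - ψ z) γ) ^ i / (i.factorial : ℝ)) • g w' z := fun i => by
        funext w' z
        rw [Nat.factorial_succ, Nat.cast_mul, mul_div_mul_left _ _ (by positivity)]
        rfl
      rw [h2, DD_zero hψ L bs (h.mul hψ γ _) (flat_mul ha h γ K.lt_succ_self), it_zero,
        DD_zero hψ L bs (h.dmul hψ γ 0) (fun x => by simpa using Flat.zero), it_zero,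
        sub_self] at h1
      refine (Finset.sum_congr rfl fun i _ => ?_).trans h1
      rw [h2, Function.iterate_succ_apply, ← ih, DD_addg hψ hL bs ((h.pd _).mul hψ γ i)
        (h.dmul hψ γ i), it_add (s1 i) ((s2 i).add (s4 i)), it_add (s2 i) (s4 i)]
      ring
    · simp only [e, if_false, zero_smul, add_zero] at ih
      simp only [← it_add (s1 _) (s2 _), ih, List.mem_cons, e, false_or]
      split_ifs
      · simp [it_zero]
      · simp only [it_comm (s3 _)]
        exact (dd_sum _ (fun i => it_sm (s3 i) _ _) _ _).symm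

end AlgX

open AlgX

theorem shf_jet {l : V → G} {q : V} (hl : ContDiffAt ℝ ∞ l q) (u : V) :
    shf K u (jet (K + 1) l q) = fderiv ℝ (jet K l) q u := shf_jet' hl u
theorem contDiff_td {L : E → Jet K V G →L[ℝ] ℝ} (hL : ContDiff ℝ ∞ L) (v : E) :
    ContDiff ℝ ∞ (td iS v L) :=
  (((hL.fderiv_right (m := ∞) le_rfl).clm_apply contDiff_const).clm_comp contDiff_const).add
    (hL.clm_comp contDiff_const)
theorem td_apply {L : E → Jet K V G →L[ℝ] ℝ} (hL : ContDiff ℝ ∞ L) {l : V → G}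
    (hl : ContDiff ℝ ∞ l) (v : E) :
    dd v (opr iS L fun _ => l) = opr iS (td iS v L) fun _ => l := by
  funext x
  rw [← td_opr hL (sj_const hl), pd_const hl]
  exact add_eq_left.2 ((congrArg (L x) ((flat_iff_jet contDiffAt_const).1 Flat.zero)).trans
    (map_zero _))
theorem DL_add (h : Adm iS ψ bb w) {L L' : E → Jet K V G →L[ℝ] ℝ} (hL : ContDiffAt ℝ ∞ L w)
    (hL' : ContDiffAt ℝ ∞ L' w) :
    DL b iS ψ bb w (fun w' => L w' + L' w') = DL b iS ψ bb w L + DL b iS ψ bb w L' :=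
  ((op_DD h.sψ w _ (sj_const h.sb)).add L L' hL hL').eq_of_nhds
theorem DL_smul (h : Adm iS ψ bb w) {L : E → Jet K V G →L[ℝ] ℝ} (hL : ContDiffAt ℝ ∞ L w) (c : ℝ) :
    DL b iS ψ bb w (fun w' => c • L w') = c * DL b iS ψ bb w L :=
  ((op_DD h.sψ w _ (sj_const h.sb)).smul c L hL).eq_of_nhds
theorem DL_congr {L L' : E → Jet K V G →L[ℝ] ℝ} (e : L =ᶠ[𝓝 w] L') :
    DL b iS ψ bb w L = DL b iS ψ bb w L' := (DD_congr e _ _).eq_of_nhds
/-- continuity -/
theorem DL_le (h : Adm iS ψ bb w) (b : Module.Basis (Fin m) ℝ E) (K : ℕ) : ∃ C : ℝ, 0 ≤ C ∧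
    ∀ (L : E → Jet K V G →L[ℝ] ℝ) (A : ℝ), Pb (m * K) L w A → |DL b iS ψ bb w L| ≤ C * A := by
  obtain ⟨C, h0, hC⟩ := (op_DD (b := b) (iS := iS) (w := w) (K := K) (K' := K) h.sψ w
    (List.finRange m) (sj_const h.sb)).bd 0
  rw [List.length_finRange, zero_add] at hC
  exact ⟨C, h0, fun L A hA => (hC L A hA).norm_le⟩
theorem Kill.trunc (h : Adm iS ψ bb w) {L : E → Jet K V G →L[ℝ] ℝ} (hL : ContDiff ℝ ∞ L)
    (hk : Kill b iS ψ bb w L) {K' : ℕ} (hK : K ≤ K') :
    Kill b iS ψ bb w fun w' => L w' ∘L trunc hK := fun f hf =>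
  (congrFun (DD_box h (fun w' => f w' • L w') hK _ (sj_const h.sb)) w).trans (hk f hf)
/-- P1 -/
theorem Kill.td (h : Adm iS ψ bb w) {L : E → Jet K V G →L[ℝ] ℝ} (hL : ContDiff ℝ ∞ L)
    (hk : Kill b iS ψ bb w L) (β : Fin m) : Kill b iS ψ bb w (td iS (b β) L) := by
  intro f hf
  have h0 : ContDiff ℝ ∞ fun x => f x • L x := hf.smul hL
  have h1 := congrFun (DD_td (b := b) h h0 β (contDiff_td h0 _) _
    (List.nodup_finRange m) (sj_const h.sb)) w
  rw [if_pos (List.mem_finRange β), pd_const h.sb,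
    DD_zero h.sψ _ _ (sj_const contDiff_const) fun _ => Flat.zero, add_zero] at h1
  have h2 : ContDiff ℝ ∞ (dd (b β) f) := it_sm hf _ 1
  have h3 := DL_add (b := b) h (L := fun x => f x • P207Z.td iS (b β) L x)
    (L' := fun x => dd (b β) f x • L x ∘L P207Z.trunc K.le_succ)
    (hf.smul (contDiff_td hL _)).contDiffAt (h2.smul (hL.clm_comp contDiff_const)).contDiffAt
  rw [hk.trunc h hL _ _ h2, add_zero] at h3
  refine h3.symm.trans (Eq.trans (congrArg _ (funext fun x => ?_)) h1)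
  rw [P207Z.td, P207Z.td,
    fderiv_fun_smul (hf.differentiable (by simp) x) (hL.differentiable (by simp) x)]
  ext a
  simp [dd]
  ring
/-- P2 -/
theorem DL_ev (h : Adm iS ψ bb w) {L : E → Jet K V G →L[ℝ] ℝ}
    (h0 : ∀ᶠ w' in 𝓝 w, ∀ l : V → G, ContDiff ℝ ∞ l → l (iS w') = 0 →
      L w' (jet K l (iS w')) = 0) : DL b iS ψ bb w L = L w (jet K bb (iS w)) :=
  (DD_ev h h0 _ (sj_const h.sb)).eq_of_nhds

end Vale.Agent.P207Z
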