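import Vale.Agent.P207Z.Char.Apx.Geo

/-!
# P207: approximation of the operators of evaluation by a finite dimensional family (block CH-C3)
-/

set_option linter.all false

open Set Filter Topology Metric MeasureTheory Asymptotics
open scoped ContDiff

noncomputable section

namespace Vale.Agent.P207Z

open Vale.Agent.P207.N3 (JC)
open Lift

variable {Γ X B E V : Type} [Group Γ] [Countable Γ] [MetricSpace X] [ProperSpace X]
  [MulAction Γ X] [IsIsometricSMul Γ X] [MeasurableSpace X] [BorelSpace X]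
  [TopologicalSpace B] [CompactSpace B] [T2Space B] [SecondCountableTopology B] [MulAction Γ B]
  [ContinuousConstSMul Γ B] [MeasurableSpace B] [BorelSpace B]
  [NormedAddCommGroup E] [InnerProductSpace ℝ E] [FiniteDimensional ℝ E]
  [NormedAddCommGroup V] [NormedSpace ℝ V] [FiniteDimensional ℝ V]
  {F : Type} [NormedAddCommGroup F] [NormedSpace ℝ F] [FiniteDimensional ℝ F]
  {S : Sys Γ X B E V} {𝔉 : Bun S F} {Y : Type} [MeasurableSpace Y] [MulAction Γ Y]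

namespace Apx

/-- the position of the graph of the leaf of `z`, at the time `m` -/
theorem pos {G : S.GrS (1 / 2)} {St : S.Step} {b r₀ rh Ch α : ℝ} (hb : 0 < b) (hCh : 0 < Ch)
    (hα : 0 < α) (hα1 : α ≤ 1) (hρ : St.ρ ≤ G.r / 2) (hrh : 2 * G.r ≤ rh)
    (hB : ∀ x t q, S.Stay (1 / 4) x t q → ∀ q' ∈ ball q (r₀ * Real.exp (-b * |t|)),
      S.Stay (1 / 2) x t q' ∧
        ‖S.τ x (S.φ t x) q' - S.τ x (S.φ t x) q‖ ≤ Real.exp (b * (|t| + 1)) * ‖q' - q‖)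
    (hH : ∀ x, ∀ z ∈ ball (0 : V) rh, ∀ z' ∈ ball (0 : V) rh, (S.c x z).2 = (S.c x z').2 →
      ‖S.pU z'‖ ≤ Ch * ‖S.pU z‖ ^ α)
    (x : X) (m : ℕ) {d R : ℝ} {z : V} (hd : 0 < d) (hd1 : d ≤ 1) (hS : ‖S.pS z‖ < St.ρ)
    (hU : ‖S.pU z‖ ≤ d) (hR : (Ch + 1) * Real.exp (b * (m * St.T + 1)) ≤ R)
    (h1 : R * d ^ α < r₀ * Real.exp (-b * (m * St.T))) (h2 : R * d ^ α < G.r / 2) :
    (∃ z' ∈ ball (0 : V) G.r, (S.c (St.o x m) z').2 = (S.c x z).2) ∧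
    (∃ w₀, ze G x (St.o x m) (S.c x z).2 w₀ = z ∧ ‖w₀ - S.pS z‖ ≤ R * R * d) ∧
    ∀ w ∈ ball (0 : E) St.ρ,
      (∀ v ∈ ball (S.τ x (St.o x m) (S.iS w)) (r₀ * Real.exp (-b * (m * St.T))),
        S.Stay (1 / 2) (St.o x m) (-(m * St.T)) v) ∧
      ‖Zg G (St.o x m) (S.c x z).2 (th S x (St.o x m) w) - S.τ x (St.o x m) (S.iS w)‖ ≤ R * d ^ α ∧
      ‖ze G x (St.o x m) (S.c x z).2 w - S.iS w‖ ≤ R * (R * d ^ α) := by
  have ht : 0 ≤ (m : ℝ) * St.T := mul_nonneg (Nat.cast_nonneg m) (by linarith [St.T_pos])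
  have hp : S.ep x = S.ep (St.o x m) := (congrArg Prod.snd (St.pt_o (x := x) (k := m))).symm
  have hE1 : 1 ≤ Real.exp (b * (m * St.T + 1)) := Real.one_le_exp (by positivity)
  have hback : ∀ w ∈ ball (0 : E) St.ρ,
      ∀ v ∈ ball (S.τ x (St.o x m) (S.iS w)) (r₀ * Real.exp (-b * (m * St.T))),
        S.Stay (1 / 2) (St.o x m) (-(m * St.T)) v ∧ ‖S.τ (St.o x m) x v - S.iS w‖
          ≤ Real.exp (b * (m * St.T + 1)) * ‖v - S.τ x (St.o x m) (S.iS w)‖ := by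
    intro w hw v hv
    have := hB (St.o x m) _ _ (stay_o St x m hw).symm v (by rwa [abs_neg, abs_of_nonneg ht])
    rw [back_eq, abs_neg, abs_of_nonneg ht] at this
    have h := this.2
    rw [show S.τ (St.o x m) x (S.τ x (S.φ (m * St.T) x) (S.iS w)) = S.iS w
      from Sys.τ_τ (dom_o St x m hw)] at h
    exact ⟨this.1, h⟩
  have hfwd := hB x _ _ (stay_o St x m (mem_ball_zero_iff.2 hS)) z
  rw [abs_of_nonneg ht] at hfwd
  generalize Real.exp (b * (m * St.T + 1)) = Eb at *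
  have hdo := fun w hw => dom_o St x m (w := w) hw
  have htm := fun w hw => th_mem St x m (w := w) hw
  change _ → _ ∧ ‖S.τ x (St.o x m) z - S.τ x (St.o x m) _‖ ≤ _ at hfwd
  have hdb := fun v a h => (dom_back (St := St) (x := x) (m := m) (v := v) (a := a) h).1
  have hdz : S.Stay (1 / 2) x (m * St.T) z → z ∈ S.dom x (St.o x m) := fun h =>
    (h _ right_mem_uIcc).1
  generalize St.o x m = y at *
  have hdα : d ≤ d ^ α := by
    simpa using Real.rpow_le_rpow_of_exponent_ge hd hd1 hα1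
  have hER : Eb ≤ R := by nlinarith
  have hCR : Ch * Eb ≤ R := by nlinarith
  have hEd : Eb * d ≤ R * d ^ α := mul_le_mul hER hdα hd.le (by linarith)
  have hz1 : ‖z - S.iS (S.pS z)‖ ≤ d := by
    rw [show z - S.iS (S.pS z) = S.iU (S.pU z) from (eq_sub_of_add_eq' (S.iS_add z)).symm,
      S.norm_iU]
    exact hU
  obtain ⟨hst, hz2⟩ := hfwd (mem_ball_iff_norm.2 (by nlinarith))
  have hzd := hdz hst
  have hz3 : ‖S.τ x y z - S.τ x y (S.iS (S.pS z))‖ ≤ Eb * d :=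
    hz2.trans (mul_le_mul_of_nonneg_left hz1 (by linarith))
  have hw1 := mem_ball_zero_iff.2 hS
  have hq1 := iS_th hp (hdo _ hw1)
  have hzn : S.τ x y z ∈ ball (0 : V) G.r := by
    rw [mem_ball_zero_iff, ← sub_add_cancel (S.τ x y z) (S.τ x y (S.iS (S.pS z)))]
    refine (norm_add_le _ _).trans_lt ?_
    rw [← hq1, S.norm_iS, hq1]
    linarith [mem_ball_zero_iff.1 (htm _ hw1)]
  have hc : (S.c y (S.τ x y z)).2 = (S.c x z).2 := by rw [Sys.c_τ hzd]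
  have hη : ∃ z' ∈ ball (0 : V) G.r, (S.c y z').2 = (S.c x z).2 := ⟨_, hzn, hc⟩
  have hG := G.r_pos
  have hpU : ‖S.pU (S.τ x y z)‖ ≤ Eb * d := by
    refine le_trans (le_of_eq ?_) ((S.norm_pU_le _).trans hz3)
    rw [map_sub, ← hq1, S.pU_iS, sub_zero]
  refine ⟨hη, ⟨th S y x (S.pS (S.τ x y z)), ?_⟩, fun w hw => ⟨fun v hv => (hback w hw v hv).1, ?_⟩⟩
  · have hv0 : ‖S.iS (S.pS (S.τ x y z)) - S.τ x y (S.iS (S.pS z))‖ ≤ Eb * d := by
      refine le_trans (le_of_eq ?_) ((S.norm_pS_le _).trans hz3)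
      rw [← S.norm_iS (S.pS _), map_sub, map_sub, ← hq1, S.pS_iS]
    obtain ⟨h3, h4⟩ := hback _ hw1 _ (mem_ball_iff_norm.2 (by linarith))
    have h5 := hdb _ _ h3
    constructor
    · have h6 : th S x y (th S y x (S.pS (S.τ x y z))) = S.pS (S.τ x y z) := by
        rw [th, iS_th hp.symm h5, Sys.τ_τ h5, S.pS_iS]
      rw [ze, h6, Zg, ← G.uniq y _ hη _ (ball_subset_ball (by linarith) hzn) hc, S.iS_add,
        Sys.τ_τ hzd]
    · rw [th, ← S.pS_iS (S.pS z), ← map_sub, mul_assoc]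
      refine (S.norm_pS_le _).trans (h4.trans (mul_le_mul hER (hv0.trans ?_) (norm_nonneg _)
        (by linarith)))
      exact mul_le_mul_of_nonneg_right hER hd.le
  · have h3 : th S x y w ∈ ball (0 : E) (2 * G.r) := ball_subset_ball (by linarith) (htm w hw)
    obtain ⟨h4, h5⟩ := G.on y _ hη _ h3
    have h6 := hH y _ (ball_subset_ball (by linarith) hzn) (Zg G y (S.c x z).2 (th S x y w)) (by
      rw [mem_ball_zero_iff, Zg, S.norm_add]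
      exact (max_lt (mem_ball_zero_iff.1 h3) h4).trans_le hrh) (hc.trans h5.symm)
    have h7 : ‖Zg G y (S.c x z).2 (th S x y w) - S.τ x y (S.iS w)‖ ≤ R * d ^ α := by
      rw [Zg, map_add, S.pU_iS, S.pU_iU, zero_add] at h6
      rw [← iS_th hp (hdo w hw), Zg, add_sub_cancel_left, S.norm_iU]
      refine h6.trans (le_trans (mul_le_mul_of_nonneg_left
        (Real.rpow_le_rpow (norm_nonneg _) hpU hα.le) hCh.le) ?_)
      rw [Real.mul_rpow (by linarith) hd.le, ← mul_assoc]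
      refine mul_le_mul_of_nonneg_right (le_trans (mul_le_mul_of_nonneg_left ?_ hCh.le) hCR)
        (by positivity)
      simpa using Real.rpow_le_rpow_of_exponent_le hE1 hα1
    exact ⟨h7, (hback w hw _ (mem_ball_iff_norm.2 (h7.trans_lt h1))).2.trans
      (mul_le_mul hER h7 (norm_nonneg _) (by linarith))⟩

/-- the estimates for the graphs -/
def GeoP {W : Type} [NormedAddCommGroup W] [NormedSpace ℝ W] (St : S.Step)
    (f : X × X → V → W →L[ℝ] W) (ev : X → (E → V) → E → W) (e : X → V → F) (K p : ℕ) (Q α : ℝ) :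
    Prop :=
  ∃ Kb : ℕ → ℝ, ∀ (x : X) (n : ℕ) (d : ℝ) (z : V), 0 < d → Q ^ (n + 1) * d ^ α ≤ 1 →
    ‖S.pS z‖ < St.ρ → ‖S.pU z‖ ≤ d → ∃ (ζ : E → V) (w₀ : E) (L : E → W),
      (∀ j, Bd St.ρ j L (Kb j)) ∧ ζ w₀ = z ∧ ‖w₀ - S.pS z‖ ≤ Q ^ (n + 1) * d ∧
      ∀ w ∈ ball (0 : E) (St.ρ / 2), ζ w ∈ ball (0 : V) 1 ∧
        Pb p (fun u => ζ u - S.iS u) w (Q ^ (n + 1) * d ^ α) ∧
        Pb p (fun u => e x (ζ u)) w (Q ^ (n + 1)) ∧
        Pb p (fun u => ev x ζ u - It (St.θ x) (fun k w => f (St.o x k, St.o x (k + 1)) (S.iS w)) 0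
          (n + 1) L u) w (Q ^ (n + 1) * (d ^ α) ^ (K + 1))

theorem geo (s : Sec 𝔉) : ∃ (St : S.Step) (α : ℝ), 0 < α ∧ ∀ K p : ℕ, ∃ Q : ℝ, 1 ≤ Q ∧
    GeoP St (jf 𝔉 K) (fun x ζ => evo S.iS K ζ fun u => s.e x (ζ u)) s.e K p Q α := by
  obtain ⟨r₁, hr₁, hsg⟩ := S.sec_graph s
  obtain ⟨rh, Ch, α, hrh, hCh, hα, hα1, hH⟩ := S.holderS
  obtain ⟨b, r₀, hb, hr₀, hB⟩ := S.stay_ball (by norm_num : (1 / 4 : ℝ) < 1 / 2) (by norm_num)
  obtain ⟨G, hG⟩ := S.exists_grS (by norm_num : (0 : ℝ) < 1 / 2)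
    (lt_min hr₁ (half_pos hrh))
  obtain ⟨St, hSt⟩ := S.exists_step (half_pos G.r_pos)
  have hGp := G.r_pos
  have hSG : SG s G := hsg _ G le_rfl (hG.trans (min_le_left _ _))
  have hρ : St.ρ ≤ 2 * G.r := by linarith
  refine ⟨St, α / 2, half_pos hα, fun K p => ?_⟩
  choose Kb hKb hL using bd_Lm K hSG
  obtain ⟨C, hC, hlk⟩ := lk2 p (half_pos St.ρ_pos) (by linarith [St.ρ_le])
  have hm : 0 < min r₀ (G.r / 2) := lt_min hr₀ (half_pos hGp)
  obtain ⟨Q, hQ, hm1, hm2, hm3⟩ := ((eventually_ge_atTop 1).and ((gr_main K hSG hρ (2 * (p + 1))).and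
    ((ev_pow ((Ch + 1) * Real.exp b) (Real.exp_pos (b * St.T)).le).and
      (ev_pow (2 / min r₀ (G.r / 2)) (Real.exp_pos (b * St.T)).le)))).exists
  refine ⟨C * Q ^ (K + 3), one_le_mul_of_one_le_of_one_le hC (one_le_pow₀ hQ), Kb,
    fun x n d z hd hs hS hU => ?_⟩
  have hQR : C * (Q ^ (n + 1)) ^ (K + 3) ≤ (C * Q ^ (K + 3)) ^ (n + 1) := by
    rw [mul_pow, ← pow_mul, ← pow_mul, mul_comm (K + 3)]
    exact mul_le_mul_of_nonneg_right (le_self_pow₀ hC (by omega)) (by positivity)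
  have e1 := hm2 n
  have e2 := hm3 n
  have hm4 := fun (η : B) (u : E) (v : V) h1 h2 h3 h4 => hm1 ⟨x, n, η, u, v, h1, h2, h3, h4⟩
  simp only [Ix.y] at hm4
  have hR1 : 1 ≤ Q ^ (n + 1) := one_le_pow₀ hQ
  generalize Q ^ (n + 1) = R at *
  generalize (C * Q ^ (K + 3)) ^ (n + 1) = R' at *
  have hε : d ^ α = (d ^ (α / 2)) ^ 2 := by
    rw [← Real.rpow_natCast, ← Real.rpow_mul hd.le]
    congr 1
    push_cast
    ring
  have hδ : 0 < d ^ (α / 2) := Real.rpow_pos_of_pos hd _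
  have hA : R ^ (K + 3) ≤ R' := (le_mul_of_one_le_left (by positivity) hC).trans hQR
  have hA2 : R * R ≤ R ^ (K + 3) := by
    rw [← pow_two]; exact pow_le_pow_right₀ hR1 (by omega)
  have hA1 : R ≤ R ^ (K + 3) := le_self_pow₀ hR1 (by omega)
  have hRδ : R * R * d ^ (α / 2) ≤ 1 :=
    (mul_le_mul_of_nonneg_right (hA2.trans hA) hδ.le).trans hs
  have hδ1 : d ^ (α / 2) ≤ 1 := by nlinarith
  have hd1 : d ≤ 1 := by
    by_contra h
    exact absurd (Real.one_lt_rpow (not_le.1 h) (half_pos hα)) (not_lt.2 hδ1)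
  have hsm : R * d ^ α < min r₀ (G.r / 2) * Real.exp (-b * ((n + 1 : ℕ) * St.T)) := by
    have h1 : 2 ≤ R * (min r₀ (G.r / 2) * Real.exp (-b * ((n + 1 : ℕ) * St.T))) := by
      refine le_trans (le_of_eq ?_) (mul_le_mul_of_nonneg_right e2 (by positivity))
      rw [← Real.exp_nat_mul, mul_mul_mul_comm, div_mul_cancel₀ _ hm.ne', ← Real.exp_add,
        show ((n + 1 : ℕ) : ℝ) * (b * St.T) + -b * ((n + 1 : ℕ) * St.T) = 0 by ring,
        Real.exp_zero, mul_one]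
    refine lt_of_mul_lt_mul_left (a := R) (lt_of_lt_of_le ?_ h1) (by linarith)
    rw [hε]
    nlinarith
  have hex : Real.exp (-b * ((n + 1 : ℕ) * St.T)) ≤ 1 := by
    rw [Real.exp_le_one_iff, neg_mul, neg_nonpos]
    have := St.T_pos
    positivity
  have h1 : R * d ^ α < r₀ * Real.exp (-b * ((n + 1 : ℕ) * St.T)) :=
    hsm.trans_le (mul_le_mul_of_nonneg_right (min_le_left _ _) (by positivity))
  obtain ⟨hη, ⟨w₀, hw₀, hw₁⟩, hw⟩ := pos hb hCh hα hα1 hSt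
    (by linarith [hG.trans (min_le_right _ _)]) hB hH x (n + 1) hd hd1 hS hU (R := R)
    (le_trans (le_of_eq (by
      rw [← Real.exp_nat_mul, mul_assoc, ← Real.exp_add]; congr 2; ring)) e1) h1
    (hsm.trans_le ((mul_le_of_le_one_right hm.le hex).trans (min_le_right _ _)))
  have hq := fun u hu => (hw u hu).1 _ (mem_ball_iff_norm.2 ((hw u hu).2.1.trans_lt h1))
  have hm5 := fun u hu => hm4 _ u _ hu hη (hq u hu) (hq u hu)
  refine ⟨_, w₀, _, fun j => bd_sub (hL j _ _ hη) hρ, hw₀,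
    hw₁.trans (mul_le_mul_of_nonneg_right (hA2.trans hA) hd.le), fun w hw2 => ?_⟩
  have hsub : closedBall w (St.ρ / 2) ⊆ ball 0 St.ρ := fun u hu => by
    rw [mem_ball] at hw2 ⊢
    linarith [dist_triangle u w 0, mem_closedBall.1 hu]
  have hw3 := hsub (mem_closedBall_self (half_pos St.ρ_pos).le)
  refine ⟨Sys.τ_ball (dom_back (hq w hw3)).1, (hlk _ w (R ^ (K + 3)) _ hδ hδ1 fun u hu =>
    ⟨(hm5 u (hsub hu)).1.le hA1, (hw u (hsub hu)).2.2.trans ?_⟩).le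
      (mul_le_mul_of_nonneg_right hQR hδ.le), (hm5 w hw3).2.1.mono (by omega) (hA1.trans hA),
    (hlk _ w (R ^ (K + 3)) _ (pow_pos hδ _) (pow_le_one₀ hδ.le hδ1) fun u hu =>
      ⟨(hm5 u (hsub hu)).2.2.1.le hA1, ?_⟩).le (mul_le_mul_of_nonneg_right hQR (by positivity))⟩
  · rw [hε, ← mul_assoc]
    exact mul_le_mul_of_nonneg_right hA2 (by positivity)
  · have hu' := hsub hu
    refine ContinuousLinearMap.opNorm_le_bound _ (by positivity) fun a => ?_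
    rw [diff_eq K hu' (dom_back (hq u hu')).1]
    have h2 : ∀ v ∈ ball (S.τ x (St.o x (n + 1)) (S.iS u))
        (r₀ * Real.exp (-b * ((n + 1 : ℕ) * St.T))),
        Pb (K + 1) (fun v => LL 𝔉 K x (St.o x (n + 1)) u v a) v (‖a‖ * R) := fun v hv =>
      ((hm4 _ u v hu' hη ((hw u hu').1 v hv) (hq u hu')).2.2.2.1.clm
        (ContinuousLinearMap.apply ℝ (Du F) a)).le (mul_le_mul_of_nonneg_right
          (ContinuousLinearMap.opNorm_le_bound _ (norm_nonneg _) fun A => by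
            rw [mul_comm]; exact A.le_opNorm a) (by linarith))
    have h3 := taylor_bound (k := K) (fun v hv => (cda (h2 v hv).sm _).contDiffWithinAt)
      (fun v hv => (h2 v hv).bd _ le_rfl) (mem_ball_iff_norm.2 ((hw u hu').2.1.trans_lt h1))
    refine (ContinuousLinearMap.le_opNorm _ _).trans ((mul_le_mul (h3.trans
      (mul_le_mul_of_nonneg_left (pow_le_pow_left₀ (norm_nonneg _) (hw u hu').2.1 _)
        (by positivity))) (hm5 u hu').2.2.2.2 (norm_nonneg _) (by positivity)).trans (le_of_eq ?_))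
    rw [hε]
    ring

theorem pb_tri {E F : Type} [NormedAddCommGroup E] [NormedSpace ℝ E] [NormedAddCommGroup F]
    [NormedSpace ℝ F] {j : ℕ} {f g h : E → F} {x : E} {K K' : ℝ}
    (h1 : Pb j (fun u => f u - g u) x K) (h2 : Pb j (fun u => g u - h u) x K') :
    Pb j (fun u => f u - h u) x (K + K') := by
  simpa only [sub_add_sub_cancel] using h1.add h2

theorem fin {W : Type} [NormedAddCommGroup W] [NormedSpace ℝ W] [FiniteDimensional ℝ W]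
    {St : S.Step} {f : X × X → V → W →L[ℝ] W} {ev : X → (E → V) → E → W} {e : X → V → F}
    {K p : ℕ} {Q α : ℝ} (H : Cy S f) (P : Prob S Y) (hQ : 1 ≤ Q) (h : GeoP St f ev e K p Q α)
    (γ : ℝ) (hγ : 0 < γ) : ∃ (N : ℕ) (G : ℝ), 1 ≤ G ∧ ∀ᵐ x ∂S.μ,
      ∃ (Λ : E → Jet N E W →L[ℝ] W) (C : ℝ), 1 ≤ C ∧
        (∀ w ∈ ball (0 : E) (St.ρ / 2), ContDiffAt ℝ ∞ Λ w) ∧
        ∀ (n : ℕ) (d : ℝ) (z : V), 0 < d → C * Q ^ n * d ^ α ≤ 1 → ‖S.pS z‖ < St.ρ / 2 / 2 →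
          ‖S.pU z‖ ≤ d → ∃ (ζ : E → V) (w₀ : E) (f : Jet N E W),
            ζ w₀ = z ∧ ‖w₀ - S.pS z‖ ≤ C * Q ^ n * d ∧ ‖f‖ ≤ C * G ^ n ∧
            ∀ w ∈ ball (0 : E) (St.ρ / 2), ζ w ∈ ball (0 : V) 1 ∧
              Pb p (fun u => ζ u - S.iS u) w (C * Q ^ n * d ^ α) ∧
              Pb p (fun u => e x (ζ u)) w (C * Q ^ n) ∧
              Pb p (fun u => ev x ζ u - Λ u f) w (C * (Q ^ n * (d ^ α) ^ (K + 1) + γ ^ n)) := by
  have hρ0 := St.ρ_pos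
  obtain ⟨Kb, h⟩ := h
  obtain ⟨N, G, hG, hae⟩ := H.ae_fd P St p hγ
  refine ⟨N, G, hG, hae.mono fun x ⟨Λ, C, hC, hΛ, hx⟩ => ?_⟩
  have hsub : ball (0 : E) (St.ρ / 2) ⊆ ball 0 St.ρ := ball_subset_ball (by linarith)
  obtain ⟨D, hD1, hD2, hD3⟩ : ∃ D, Q ≤ D ∧ C * G * Kb (p + (N + 1)) ≤ D ∧
      C * γ * Kb (p + (N + 1)) ≤ D := ⟨max Q (max _ _), le_max_left _ _,
    le_max_of_le_right (le_max_left _ _), le_max_of_le_right (le_max_right _ _)⟩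
  refine ⟨Λ, D, hQ.trans hD1, fun w hw => hΛ w (hsub hw), fun n d z hd hs hS hU => ?_⟩
  have hQD : Q ^ (n + 1) ≤ D * Q ^ n := by
    rw [pow_succ']; exact mul_le_mul_of_nonneg_right hD1 (by positivity)
  have hδ : 0 < d ^ α := Real.rpow_pos_of_pos hd _
  obtain ⟨ζ, w₀, L, hL, h1, h2, h3⟩ := h x n d z hd
    ((mul_le_mul_of_nonneg_right hQD hδ.le).trans hs) (by linarith) hU
  obtain ⟨f, h4, h5⟩ := hx (n + 1) _ _ (hL _)
  refine ⟨ζ, w₀, f, h1, h2.trans (mul_le_mul_of_nonneg_right hQD hd.le), h4.trans ?_,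
    fun w hw => ⟨(h3 w hw).1, (h3 w hw).2.1.le (mul_le_mul_of_nonneg_right hQD hδ.le),
      (h3 w hw).2.2.1.le hQD, (pb_tri (h3 w hw).2.2.2 (h5 w (hsub hw))).le ?_⟩⟩
  · calc C * G ^ (n + 1) * _ = C * G * Kb (p + (N + 1)) * G ^ n := by ring
      _ ≤ _ := mul_le_mul_of_nonneg_right hD2 (by positivity)
  · rw [mul_add, ← mul_assoc]
    refine add_le_add (mul_le_mul_of_nonneg_right hQD (by positivity)) ?_
    calc C * γ ^ (n + 1) * _ = C * γ * Kb (p + (N + 1)) * γ ^ n := by ring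
      _ ≤ _ := mul_le_mul_of_nonneg_right hD3 (by positivity)

end Apx

open Apx in
theorem Sec.apx (s : Sec 𝔉) (P : Prob S Y) : ∃ r α : ℝ, 0 < r ∧ r ≤ 1 / 4 ∧ 0 < α ∧
    ∀ K p : ℕ, ∃ Q : ℝ, 1 ≤ Q ∧ ∀ γ : ℝ, 0 < γ → ∃ (N : ℕ) (G : ℝ), 1 ≤ G ∧ ∀ᵐ x ∂S.μ,
      ∃ (Λ : E → Jet N E (Jet K V (Du F) →L[ℝ] ℝ) →L[ℝ] Jet K V (Du F) →L[ℝ] ℝ) (C : ℝ), 1 ≤ C ∧
        (∀ w ∈ ball (0 : E) r, ContDiffAt ℝ ∞ Λ w) ∧
        ∀ (n : ℕ) (d : ℝ) (z : V), 0 < d → C * Q ^ n * d ^ α ≤ 1 → ‖S.pS z‖ < r / 2 →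
          ‖S.pU z‖ ≤ d → ∃ (ζ : E → V) (w₀ : E) (f : Jet N E (Jet K V (Du F) →L[ℝ] ℝ)),
            ζ w₀ = z ∧ ‖w₀ - S.pS z‖ ≤ C * Q ^ n * d ∧ ‖f‖ ≤ C * G ^ n ∧
            ∀ w ∈ ball (0 : E) r, ζ w ∈ ball (0 : V) 1 ∧
              Pb p (fun u => ζ u - S.iS u) w (C * Q ^ n * d ^ α) ∧
              Pb p (fun u => s.e x (ζ u)) w (C * Q ^ n) ∧
              Pb p (fun u => evo S.iS K ζ (fun u => s.e x (ζ u)) u - Λ u f) w
                (C * (Q ^ n * (d ^ α) ^ (K + 1) + γ ^ n)) :=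
  (geo s).elim fun St h => h.elim fun α h => ⟨St.ρ / 2, α, half_pos St.ρ_pos,
    by linarith [St.ρ_le, St.ρ_pos], h.1, fun K p => (h.2 K p).imp fun _ hQ =>
      ⟨hQ.1, fin (cy_jf 𝔉 K) P hQ.1 hQ.2⟩⟩

end Vale.Agent.P207Z
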