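import Vale.Agent.P207Z.Char.MJ
import Vale.Agent.P207Z.Char.Axis.Est

/-!
# P207: extension of the modules of jets along the stable axis (block CH-B)
-/

set_option linter.all false

open Set Filter Topology Metric MeasureTheory Asymptotics
open scoped ContDiff

noncomputable section

namespace Vale.Agent.P207Z

open Vale.Agent.P207.N3 (JC)
open Lift

variable {Γ X B E V : Type} [Group Γ] [Countable Γ] [MetricSpace X] [ProperSpace X]
  [MulAction Γ X] [IsIsometricSMul Γ X] [MeasurableSpace X] [BorelSpace X]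
  [TopologicalSpace B] [CompactSpace B] [T2Space B] [SecondCountableTopology B] [MulAction Γ B]
  [ContinuousConstSMul Γ B] [MeasurableSpace B] [BorelSpace B]
  [NormedAddCommGroup E] [InnerProductSpace ℝ E] [FiniteDimensional ℝ E]
  [NormedAddCommGroup V] [NormedSpace ℝ V] [FiniteDimensional ℝ V]
  {F : Type} [NormedAddCommGroup F] [NormedSpace ℝ F] [FiniteDimensional ℝ F]
  {S : Sys Γ X B E V} {𝔉 : Bun S F} {Y : Type} [MeasurableSpace Y] [MulAction Γ Y]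

namespace Ax

variable {G : Type} [NormedAddCommGroup G] [NormedSpace ℝ G] [FiniteDimensional ℝ G]

theorem kill (s : CSec 𝔉) (St : S.Step) {L c : ℕ} (hc : c ≤ L) {g : ℝ} (hg : 1 ≤ g) :
    ∀ᶠ N : ℕ in atTop, ∀ (P : Type) [NormedAddCommGroup P] [NormedSpace ℝ P] (C a : ℝ) (x : X)
      (W : ℕ → P → Jet (N + L) V (Du F)) (l : ℕ → V → P →L[ℝ] Du F), 1 ≤ C →
      Out S L N St.ρ C (fun k => a * g ^ k) (fun k => 𝔉.pull x (St.o x k)) W l → ∀ c₂ ≥ N,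
      (∃ n, ∀ᶠ m : ℕ in atTop, ∃ k, m ≤ k ∧ k ≤ 2 * m ∧ s.Wit (N + L) c₂ n (St.o x k)) →
      ∀ j, (∀ k, W k j ∈ s.MJ (N + L) c₂ (St.o x k) ∧ ‖W k j‖ ≤ a * g ^ k * ‖j‖) → ∃ C' : ℝ,
        ∀ z ∈ ball (0 : V) (St.ρ / (2 * St.C)), |l 0 z j (s.e x z)| ≤ C' * ‖S.pU z‖ ^ c := by
  obtain ⟨Q, hQ, h⟩ := core St s L
  obtain ⟨Ce, he0, he⟩ := S.unif_cont s.cont s.smul (a := 1 / 2) (by norm_num)
  have hT := St.T_pos
  have hρ := St.ρ_pos
  have e1 : 1 ≤ Real.exp (Q * St.T) := Real.one_le_exp (by positivity)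
  have e2 : Real.exp (-S.lam) < 1 := Real.exp_lt_one_iff.2 (neg_lt_zero.2 S.lam_pos)
  have e3 := one_le_mul_of_one_le_of_one_le hg e1
  obtain ⟨η, h0, h1, hN⟩ := nums e3 (Real.exp_pos _) e2 L c
  filter_upwards [hN] with N hN P _ _ C a x W l hC o c₂ hc₂ ⟨n, hn⟩ j hj
  have a0 : 0 ≤ a * ‖j‖ := by simpa using (norm_nonneg _).trans (hj 0).2
  have r0 := lt_min hρ (rad_pos n)
  obtain ⟨K, hK⟩ : ∃ K, K = C * ((n + 1) * (a * ‖j‖)) := ⟨_, rfl⟩
  obtain ⟨C', κ₀, hκ, h⟩ := h N c K _ hc (half_pos r0)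
  obtain ⟨m₀, hm⟩ := eventually_atTop.1 (hn.and (((tendsto_pow_atTop_nhds_zero_of_lt_one
    (Real.exp_pos _).le e2).eventually (ge_mem_nhds hκ)).and (eventually_ge_atTop 1)))
  have n0 : (0 : ℝ) ≤ n := n.cast_nonneg
  have k1 : a * ‖j‖ ≤ (n + 1) * (a * ‖j‖) := by nlinarith
  have k2 : (n + 1) * (a * ‖j‖) ≤ K := hK ▸ le_mul_of_one_le_left (by positivity) hC
  have p : ∀ k, ∀ z ∈ ball (0 : V) St.ρ, Pb (L + 1) (fun z => l k z j) z (K * g ^ k) :=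
    fun k z hz => (pb_ap (o.bd k z hz) j).le (by
      rw [hK, show C * (a * g ^ k) * ‖j‖ = C * (a * ‖j‖) * g ^ k by ring]
      gcongr)
  have hsub : ball (0 : V) (St.ρ / (2 * St.C)) ⊆ ball 0 St.ρ :=
    ball_subset_ball (div_le_self hρ.le (by linarith [St.C_pos]))
  refine pow_scale (C := C') (C₀ := K * g ^ 0 * Ce) (m₀ := m₀) h0 h1 (fun _ => norm_nonneg _)
    (fun z hz => ((l 0 z j).le_opNorm _).trans (mul_le_mul (p 0 z (hsub hz)).norm_le (he x z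
      (by linarith [mem_ball_zero_iff.1 (hsub hz), St.ρ_le])) (norm_nonneg _)
      (p 0 z (hsub hz)).nonneg)) fun m hm' z hz hd => ?_
  obtain ⟨⟨k, b1, b2, b3⟩, b4, b5⟩ := hm m hm'
  obtain ⟨k, rfl⟩ : ∃ i, k = i + 1 := ⟨k - 1, by omega⟩
  obtain ⟨l', c1, c2⟩ := b3 _ (hj _).1
  have c3 := pow_le_pow_right₀ e3 b2
  have c4 : g ^ (k + 1) ≤ _ :=
    (pow_le_pow_left₀ (by positivity) (le_mul_of_one_le_right (by positivity) e1) _).trans c3
  have c5 : Real.exp (Q * St.T) ^ (k + 1) ≤ _ :=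
    (pow_le_pow_left₀ (by positivity) (le_mul_of_one_le_left (by positivity) hg) _).trans c3
  have K0 : 0 ≤ K := le_trans (by positivity) k2
  have c6 : n * ‖W (k + 1) j‖ ≤ n * (a * ‖j‖) * g ^ (k + 1) :=
    (mul_le_mul_of_nonneg_left (hj _).2 n0).trans (le_of_eq (by ring))
  refine h x ((k + 1 : ℕ) * St.T) (by positivity) (fun z => l 0 z j) (fun z => l (k + 1) z j) l' _
    _ _ (one_le_pow₀ e3) (by positivity) b4 (hN m).1 (hN m).2 ?_ ?_
    (fun z hz => ⟨by simpa using p 0 z hz, (p _ z hz).le (by gcongr)⟩) (fun z hz => ⟨?_, ?_⟩)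
    (o.eqv k j) z (mem_ball_zero_iff.1 hz) hd
  · rwa [mul_left_comm, Real.exp_nat_mul]
  · rw [← Real.exp_nat_mul, Real.exp_le_exp]
    have : (m : ℝ) ≤ (k + 1 : ℕ) * St.T :=
      (Nat.cast_le.2 b1).trans (le_mul_of_one_le_right (by positivity) hT)
    nlinarith [S.lam_pos]
  · refine (o.cmp (k + 1) j l' _ _ r0 (min_le_left _ _) c1 (fun z hz => (c2 z (ball_subset_ball
      (min_le_right _ _) hz)).1.le c6) z hz).trans (mul_le_mul_of_nonneg_right ?_ (by positivity))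
    refine le_trans (le_of_eq ?_) (mul_le_mul_of_nonneg_left c4 K0)
    rw [hK]
    ring
  · have z1 : z ∈ ball (0 : V) (rad n) :=
      ball_subset_ball ((half_le_self r0.le).trans (min_le_right _ _)) hz
    refine (c2 z z1).2.trans (mul_le_mul (c6.trans (mul_le_mul (by linarith) c4 (by positivity) K0))
      (pow_le_pow_of_le_one (norm_nonneg _) ((mem_ball_zero_iff.1 z1).le.trans (rad_le_one n)) hc₂)
      (by positivity) (by positivity))

variable (C : Coc0 S G)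

/-- the transport of the part `q` along the orbit -/
def Wk (q : G →L[ℝ] G) (x : X) (t : ℝ) : G →L[ℝ] G := C.fl t x * q * C.fl (-0) (S.φ 0 x)

theorem Wk_apply (q : G →L[ℝ] G) (x : X) (t : ℝ) (v : G) :
    Wk C q x t v = C.Φ x (S.φ t x) (q (C.Φ x x v)) := by
  rw [Wk, C.fl_neg, S.φ_zero]
  rfl

theorem Wk_coc (q : G →L[ℝ] G) (x : X) (t t' : ℝ) (v : G) :
    C.Φ (S.φ t' x) (S.φ t x) (Wk C q x t' v) = Wk C q x t v := by
  rw [Wk_apply, Wk_apply, ← C.coc x _ _ (S.pt_φ t' x).symm (S.pt_φ t x).symm]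
  rfl

theorem slow_mem {H : Submodule ℝ G} {x : X} (h : ∀ a, ∀ v ∈ H, MET.prj S.φ C.fl x a v ∈ H)
    (Λ : Finset ℝ) (a : ℝ) {v : G} (hv : v ∈ H) : C.slow Λ a x v ∈ H := by
  rw [Coc0.slow, ContinuousLinearMap.sum_apply]
  exact H.sum_mem fun l _ => h l v hv

/-- the fast part dies in a quotient of slow growth -/
theorem fast_zero {G' : Type} [NormedAddCommGroup G'] [NormedSpace ℝ G'] [FiniteDimensional ℝ G']
    (C' : Coc0 S G') (π : G →L[ℝ] G') {L n : ℝ} (hL : MET.FCoc S.φ C'.fl L) {x : X}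
    (hπ : ∀ y, S.pt y = S.pt x → ∀ v, π (C.Φ y x v) = C'.Φ y x (π v)) {q : G →L[ℝ] G}
    (h : ∀ t ≤ (0 : ℝ), ‖Wk C (C.fl 0 x - q) x t‖
      ≤ n * Real.exp ((t - 0) * (L + 2) + 1 * (|0| + |t|))) {v : G} (hv : C.Φ x x v = v) :
    π (Wk C q x 0 v) = π v := by
  have e : ∀ t, π v - π (Wk C q x 0 v) = C'.fl (-t) (S.φ t x) (π (Wk C (C.fl 0 x - q) x t v)) := by
    intro t
    have := Wk_coc C (C.fl 0 x - q) x 0 t v
    rw [S.φ_zero] at this
    rw [C'.fl_neg, ← hπ _ (S.pt_φ t x), this, Wk_apply, Wk_apply, C.fl_zero, S.φ_zero,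
      ContinuousLinearMap.sub_apply, map_sub, map_sub, hv, hv, hv]
  have h1 := (Real.tendsto_exp_atBot.const_mul (Real.exp (L * 2) * (‖π‖ * (n * ‖v‖))))
  rw [mul_zero] at h1
  refine (eq_of_norm_sub_le_zero (ge_of_tendsto h1 ?_)).symm
  filter_upwards [eventually_le_atBot (0 : ℝ)] with t ht
  rw [e t]
  refine ((C'.fl _ _).le_opNorm _).trans ((mul_le_mul (hL.bd _ _) ((π.le_opNorm _).trans
    (mul_le_mul_of_nonneg_left (((Wk C _ x t).le_opNorm v).trans (mul_le_mul_of_nonneg_right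
      (h t ht) (norm_nonneg v))) π.opNorm_nonneg)) (norm_nonneg _) (by positivity)).trans
    (le_of_eq ?_))
  have : Real.exp (L * (|-t| + 2)) * Real.exp ((t - 0) * (L + 2) + 1 * (|0| + |t|))
      = Real.exp (L * 2) * Real.exp t := by
    rw [← Real.exp_add, ← Real.exp_add, abs_neg, abs_zero, abs_of_nonpos ht]
    congr 1
    ring
  linear_combination ‖π‖ * n * ‖v‖ * this

theorem Wk_bd {q : G →L[ℝ] G} {x : X} {n a T : ℝ} (hT : 0 ≤ T) (k : ℕ)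
    (h : ∀ t, 0 ≤ t → ‖Wk C q x t‖ ≤ n * Real.exp ((t - 0) * a + 1 * (|0| + |t|))) :
    ‖Wk C q x (k * T)‖ ≤ n * Real.exp ((a + 1) * T) ^ k := by
  refine (h _ (by positivity)).trans (le_of_eq ?_)
  rw [← Real.exp_nat_mul, abs_zero, abs_of_nonneg (by positivity)]
  congr 2
  ring

end Ax

open Ax in
theorem CSec.axis (s : CSec 𝔉) (P : Prob S Y) (K c : ℕ) : ∃ (D : ℕ) (h : K ≤ D) (c₁ : ℕ),
    ∀ c₂ ≥ c₁, S.Tight fun n x => ∃ l : V → Jet D V (Du F) →L[ℝ] Du F,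
      (∀ z ∈ ball (0 : V) (rad n), Pb (K + 1) l z n) ∧ ∀ j ∈ s.MJ D c₂ x,
        jet K (fun z => l z j) 0 = trunc h j ∧ ∃ C : ℝ, ∀ z ∈ ball (0 : V) (rad n),
          |l z j (s.e x z)| ≤ C * ‖S.pU z‖ ^ c := by
  obtain ⟨St, -⟩ := S.exists_step one_pos
  obtain ⟨a, ha⟩ := (𝔉.jc0 K).fcoc
  obtain ⟨L, hK, hc⟩ : ∃ L, K ≤ L ∧ c ≤ L := ⟨_, le_max_left _ _, le_max_right _ _⟩
  have hT := zero_le_one.trans St.T_pos
  have hρ := St.ρ_pos
  have hC := St.C_pos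
  have hg : 1 ≤ Real.exp ((a + 2 + 1) * St.T) := Real.one_le_exp (by have := ha.nn; positivity)
  obtain ⟨M, hM, hl⟩ := lf 𝔉 St L
  have h1 := ((tendsto_pow_atTop_nhds_zero_of_lt_one one_half_pos.le
    one_half_lt_one).const_mul M).mul_const (Real.exp ((a + 2 + 1) * St.T))
  rw [mul_zero, zero_mul] at h1
  obtain ⟨N, h2, h3, h4⟩ := ((kill s St hc hg).and ((h1.eventually (gt_mem_nhds one_pos)).and
    (eventually_ge_atTop 1))).exists
  obtain ⟨C, hC1, hl⟩ := hl N _ (Real.exp_pos _) h3 h4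
  obtain ⟨Λ, -, hs⟩ := (𝔉.jc0 (N + L)).split P (a + 2) one_pos
  obtain ⟨n₀, hn₀⟩ := exists_rad_le (by positivity : 0 < St.ρ / (2 * St.C))
  refine ⟨N + L, hK.trans (Nat.le_add_left L N), N, fun c₂ hc₂ => hs.imp fun n =>
    ⟨max n₀ ⌈C * n⌉₊, ?_⟩⟩
  filter_upwards [St.window P (s.tight_wit (N + L) c₂) (s.port_wit (N + L) c₂),
    (𝔉.jc0 (N + L)).prj_mem P (s.msub_MJ (N + L) c₂)
      (Eventually.of_forall fun x y h v hv => s.MJ_jc h.symm hv) fun g x => s.MJ_smul g]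
    with x w1 w2 w3
  have b1 := fun k => Wk_bd (𝔉.jc0 (N + L)) hT k fun t ht => (w3 0 t).1 ht
  obtain ⟨l, o⟩ := hl x (fun k => Wk (𝔉.jc0 (N + L)) _ x (k * St.T)) n b1
    fun k j => Wk_coc (𝔉.jc0 (N + L)) _ x _ _ j
  have hr := ball_subset_ball (x := (0 : V)) (hn₀ _ (le_max_left n₀ ⌈C * n⌉₊))
  have mem : ∀ t, ∀ j ∈ s.MJ (N + L) c₂ x, Wk (𝔉.jc0 (N + L))
      ((𝔉.jc0 (N + L)).slow Λ (a + 2) x) x t j ∈ s.MJ (N + L) c₂ (S.φ t x) := fun t j hj => by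
    rw [Wk_apply]
    exact s.MJ_jc (S.pt_φ t x).symm (slow_mem _ w2 _ _ (s.MJ_jc rfl hj))
  refine ⟨l 0, fun z hz => (o.bd 0 z (ball_subset_ball (div_le_self hρ.le (by linarith))
    (hr hz))).mono (by omega) ?_, fun j hj => ⟨?_, ?_⟩⟩
  · rw [pow_zero, mul_one]
    exact (Nat.le_ceil _).trans (Nat.cast_le.2 (le_max_right _ _))
  · have a1 := s.MJ_hol (mem 0 j hj)
    have a2 := fast_zero (𝔉.jc0 (N + L)) (𝔉.jc0 K) (trunc (hK.trans (Nat.le_add_left L N))) ha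
      (fun y hy v => 𝔉.JT_trunc _ _ (Sys.zero_dom hy.symm) v) (fun t ht => (w3 0 t).2 ht)
      ((𝔉.JT_self _ (mem_ball_self one_pos) j).trans (s.MJ_hol hj))
    have a3 := o.zero j
    simp only [Nat.cast_zero, zero_mul] at a3
    rw [← trunc_jet hK, a3, trunc_jet, ← a2, ← a1, trunc_jet, a1]
  · obtain ⟨C', hC'⟩ := h2 _ C n x _ l hC1 o c₂ hc₂ w1 j fun k => ⟨mem _ j hj,
      (ContinuousLinearMap.le_opNorm _ j).trans (mul_le_mul_of_nonneg_right (b1 k) (norm_nonneg _))⟩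
    exact ⟨C', fun z hz => hC' z (hr hz)⟩

end Vale.Agent.P207Z
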