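import Vale.Agent.P207Z.Char.Alg

/-!
# P207: the rank argument (block CH-C1b)
-/

set_option linter.all false

open Set Filter Topology Metric MeasureTheory Asymptotics
open scoped ContDiff

noncomputable section

namespace Vale.Agent.P207Z

open Vale.Agent.P207.N3 (JC)
open Lift

variable {E V G : Type} [NormedAddCommGroup E] [NormedSpace ℝ E] [FiniteDimensional ℝ E]
  [NormedAddCommGroup V] [NormedSpace ℝ V] [FiniteDimensional ℝ V]
  [NormedAddCommGroup G] [NormedSpace ℝ G] [FiniteDimensional ℝ G]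
  {m K : ℕ} {b : Module.Basis (Fin m) ℝ E} {iS : E →L[ℝ] V} {ψ : V → E} {bb : V → G} {w : E}

namespace CoreAux

open Module

section lin

variable {X Y : Type} [NormedAddCommGroup X] [NormedSpace ℝ X] [FiniteDimensional ℝ X]
  [NormedAddCommGroup Y] [NormedSpace ℝ Y] [FiniteDimensional ℝ Y]

/-- a generalised inverse -/
theorem gen_inv (A : X →L[ℝ] Y) : ∃ T : Y →L[ℝ] X, ∀ x, A (T (A x)) = A x := by
  obtain ⟨σ, hσ⟩ := (A : X →ₗ[ℝ] Y).rangeRestrict.exists_rightInverse_of_surjective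
    (LinearMap.range_rangeRestrict _)
  obtain ⟨T, hT⟩ := σ.exists_extend
  exact ⟨LinearMap.toContinuousLinearMap T, fun x => (congrArg A (LinearMap.congr_fun hT
    ⟨A x, x, rfl⟩)).trans (congrArg Subtype.val (LinearMap.congr_fun hσ ⟨A x, x, rfl⟩))⟩

/-- a smooth section of the kernel at a point of maximal rank -/
theorem ker_sec {A : E → X →L[ℝ] Y} (hA : ContDiff ℝ ∞ A)
    (hr : ∀ᶠ w' in 𝓝 w, finrank ℝ (A w').range ≤ finrank ℝ (A w).range) {c : X} (hc : A w c = 0) :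
    ∃ g : E → X, ContDiff ℝ ∞ g ∧ g w = c ∧ ∀ᶠ w' in 𝓝 w, A w' (g w') = 0 := by
  obtain ⟨T, hT⟩ := gen_inv (A w)
  let N : E → X →L[ℝ] X := fun w' => 1 + T ∘L (A w' - A w)
  have hN : ContDiff ℝ ∞ N := contDiff_const.add (contDiff_const.clm_comp (hA.sub contDiff_const))
  have h1 : N w = 1 := by simp [N]
  have hU : {w' | IsUnit (N w')} ∈ 𝓝 w :=
    (Units.isOpen.preimage hN.continuous).mem_nhds (show IsUnit (N w) from h1 ▸ isUnit_one)
  obtain ⟨χ, h2, -, h3, -, h4⟩ := exists_contDiff_tsupport_subset (n := ⊤) hU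
  refine ⟨fun w' => χ w' • Ring.inverse (N w') c, contDiff_iff_contDiffAt.2 fun x => ?_,
    by simp [h1, h4], ?_⟩
  · by_cases hx : x ∈ tsupport χ
    · obtain ⟨u, hu⟩ : IsUnit (N x) := h2 hx
      exact h3.contDiffAt.smul (((hu ▸ contDiffAt_ringInverse ℝ u).comp x hN.contDiffAt).clm_apply
        contDiffAt_const)
    · refine (contDiffAt_const (c := 0)).congr_of_eventuallyEq ?_
      filter_upwards [notMem_tsupport_iff_eventuallyEq.1 hx] with y hy
      rw [hy, Pi.zero_apply, zero_smul]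
  · filter_upwards [hU, hr] with y hy hry
    have e : ∀ x, N y (Ring.inverse (N y) x) = x := fun x =>
      congrArg (fun u : X →L[ℝ] X => u x) (Ring.mul_inverse_cancel _ hy)
    have k1 : (A y).ker ≤ (A w ∘L N y).ker := fun x hx => by
      have : A y x = 0 := hx
      simp [N, this, hT]
    have k2 : (A w ∘L N y).range = (A w).range := le_antisymm (by rintro _ ⟨x, rfl⟩; exact ⟨_, rfl⟩)
      (by rintro _ ⟨x, rfl⟩; exact ⟨_, congrArg (A w) (e x)⟩)
    have k3 := (A w ∘L N y).toLinearMap.finrank_range_add_finrank_ker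
    have k4 := (A y).toLinearMap.finrank_range_add_finrank_ker
    have k5 : Ring.inverse (N y) c ∈ (A y).ker := by
      rw [Submodule.eq_of_le_of_finrank_le k1 (by rw [k2] at k3; omega)]
      exact (congrArg (A w) (e c)).trans hc
    rw [map_smul, show A y _ = 0 from k5, smul_zero]

/-- the rank argument -/
theorem rank_core0 {ι : Type} [Fintype ι] {L : ι → E → Y →L[ℝ] ℝ}
    (hL : ∀ i, ContDiff ℝ ∞ (L i)) {O : Set E} (hO : IsOpen O) (hne : O.Nonempty) :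
    ∃ O' : Set E, IsOpen O' ∧ O'.Nonempty ∧ O' ⊆ O ∧ ∀ w ∈ O', ∀ a : ι → ℝ,
      (∀ g : ι → E → ℝ, (∀ i, ContDiff ℝ ∞ (g i)) →
        (∀ᶠ w' in 𝓝 w, ∀ z, ∑ i, g i w' * L i w' z = 0) → ∑ i, g i w * a i = 0) →
      ∃ z, ∀ i, L i w z = a i := by
  classical
  let A : E → (ι → ℝ) →L[ℝ] Y →L[ℝ] ℝ := fun w' =>
    ∑ i, (ContinuousLinearMap.proj i : (ι → ℝ) →L[ℝ] ℝ).smulRight (L i w')
  have hA : ContDiff ℝ ∞ A := ContDiff.sum fun i _ => contDiff_const.smulRight (hL i)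
  have eA : ∀ w' c z, A w' c z = ∑ i, c i * L i w' z := fun w' c z => by
    simp [A, ContinuousLinearMap.sum_apply]
  have hb : BddAbove ((fun w' => finrank ℝ (A w').range) '' O) :=
    ⟨finrank ℝ (Y →L[ℝ] ℝ), by rintro _ ⟨w', -, rfl⟩; exact Submodule.finrank_le _⟩
  obtain ⟨w₀, h0, h1⟩ := Nat.sSup_mem (hne.image _) hb
  have h2 : ∀ (n : ℕ) w', (n : Cardinal) ≤ (A w').toLinearMap.rank ↔ n ≤ finrank ℝ (A w').range :=
    fun n w' => by rw [LinearMap.rank, ← finrank_eq_rank, Nat.cast_le]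
  refine ⟨O ∩ A ⁻¹' {f | (finrank ℝ (A w₀).range : Cardinal) ≤ f.toLinearMap.rank},
    hO.inter ((isOpen_setOfPred_nat_le_rank _).preimage hA.continuous),
    ⟨w₀, h0, (h2 _ _).2 le_rfl⟩, inter_subset_left, fun w hw a h => ?_⟩
  let μ : Y →ₗ[ℝ] ι → ℝ := LinearMap.pi fun i => (L i w).toLinearMap
  by_contra hn
  obtain ⟨φ, k1, k2⟩ := Submodule.exists_dual_map_eq_bot_of_notMem (p := LinearMap.range μ)
    (x := a) (fun ⟨z, hz⟩ => hn ⟨z, congrFun hz⟩) inferInstance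
  have k3 : ∀ v : ι → ℝ, φ v = ∑ i, φ (Pi.single i 1) * v i := fun v => by
    rw [LinearMap.pi_apply_eq_sum_univ]
    exact Finset.sum_congr rfl fun i _ => by
      rw [smul_eq_mul, mul_comm]
      congr 2
      funext j
      simp [Pi.single_apply, eq_comm]
  obtain ⟨g, g1, g2, g3⟩ := ker_sec (w := w) hA (c := fun i => φ (Pi.single i 1)) (by
    filter_upwards [hO.mem_nhds hw.1] with y hy
    exact ((le_csSup hb ⟨y, hy, rfl⟩).trans h1.ge).trans ((h2 _ _).1 hw.2))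
    (ContinuousLinearMap.ext fun z => (eA _ _ z).trans ((k3 (μ z)).symm.trans
      ((Submodule.eq_bot_iff _).1 k2 _ ⟨_, ⟨z, rfl⟩, rfl⟩)))
  refine k1 ((k3 _).trans ?_)
  have := h (fun i y => g y i) (contDiff_pi.1 g1) (g3.mono fun y hy z => by
    rw [← eA y (g y) z, hy, ContinuousLinearMap.zero_apply])
  simpa only [g2] using this

theorem rank_core (Z : Submodule ℝ Y) {ι : Type} [Fintype ι] {L : ι → E → Y →L[ℝ] ℝ}
    (hL : ∀ i, ContDiff ℝ ∞ (L i)) {O : Set E} (hO : IsOpen O) (hne : O.Nonempty) :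
    ∃ O' : Set E, IsOpen O' ∧ O'.Nonempty ∧ O' ⊆ O ∧ ∀ w ∈ O', ∀ a : Y,
      (∀ g : ι → E → ℝ, (∀ i, ContDiff ℝ ∞ (g i)) →
        (∀ᶠ w' in 𝓝 w, ∀ z ∈ Z, ∑ i, g i w' * L i w' z = 0) → ∑ i, g i w * L i w a = 0) →
      ∃ z ∈ Z, ∀ i, L i w z = L i w a := by
  obtain ⟨O', h1, h2, h3, h4⟩ := rank_core0 (Y := Z) (L := fun i w' => L i w' ∘L Z.subtypeL)
    (fun i => (hL i).clm_comp contDiff_const) hO hne
  refine ⟨O', h1, h2, h3, fun w hw a h => ?_⟩
  obtain ⟨z, hz⟩ := h4 w hw (fun i => L i w a) fun g hg k =>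
    h g hg (k.mono fun y hy z hz => hy ⟨z, hz⟩)
  exact ⟨z, z.2, hz⟩

/-- flatness on a basis -/
theorem flat_basis {ι : Type} [Fintype ι] (e : Basis ι ℝ X) {c : ℕ} {M : E → X →L[ℝ] ℝ}
    (h : ∀ i, Flat c (fun y => M y (e i)) w) : Flat c M w := flat_clm_iff.2 fun v => by
  refine (Flat.sum (s := Finset.univ) fun i _ => (h i).const_mul (e.repr v i)).congr
    (Eventually.of_forall fun y => ?_)
  refine (congrArg (M y) (e.sum_repr v).symm).trans ((map_sum (M y) _ _).trans ?_)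
  exact Finset.sum_congr rfl fun i _ => map_smul (M y) _ _

end lin

theorem contDiff_jet {l : V → G} (hl : ContDiff ℝ ∞ l) : ContDiff ℝ ∞ (jet K l) :=
  contDiff_pi.2 fun i => hl.iteratedFDeriv_right (by exact_mod_cast le_top)

theorem contDiff_opr {L : E → Jet K V G →L[ℝ] ℝ} (hL : ContDiff ℝ ∞ L) {l : V → G}
    (hl : ContDiff ℝ ∞ l) : ContDiff ℝ ∞ (opr iS L fun _ => l) :=
  hL.clm_apply ((contDiff_jet hl).comp iS.contDiff)

theorem flat_succ {c : ℕ} {u : E → ℝ} (hu : ContDiff ℝ ∞ u) (h0 : u w = 0)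
    (h : ∀ β, Flat c (dd (b β) u) w) : Flat (c + 1) u w := by
  have h2 := convex_univ.isLittleO_pow_succ (mem_univ w) (f := u)
    (fun x _ => (hu.differentiable (by simp) x).hasFDerivAt.hasFDerivWithinAt)
    (IsLittleO.mono (flat_basis b h) nhdsWithin_le_nhds)
  simp only [nhdsWithin_univ, h0, sub_zero] at h2
  exact h2

/-- prolongation of a finite family -/
theorem prolong {O : Set E} {ψ : E → V → E} {bb : E → V → G}
    (ha : ∀ w ∈ O, Adm iS (ψ w) (bb w) w) (c : ℕ) : ∀ (K : ℕ) (ι : Type) [Fintype ι]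
    (L : ι → E → Jet K V G →L[ℝ] ℝ), (∀ i, ContDiff ℝ ∞ (L i)) →
    (∀ w ∈ O, ∀ i, Kill b iS (ψ w) (bb w) w (L i)) →
    ∃ (K' : ℕ) (ι' : Type) (_ : Fintype ι') (L' : ι' → E → Jet K' V G →L[ℝ] ℝ), K ≤ K' ∧
      (∀ i, ContDiff ℝ ∞ (L' i)) ∧ (∀ w ∈ O, ∀ i, Kill b iS (ψ w) (bb w) w (L' i)) ∧
      ∀ w l, ContDiff ℝ ∞ l → (∀ i, L' i w (jet K' l (iS w)) = 0) →
        ∀ i, Flat c (opr iS (L i) fun _ => l) w := by
  induction c with
  | zero =>
    refine fun K ι _ L hL hk => ⟨K, ι, inferInstance, L, le_rfl, hL, hk, fun w l hl h i => ?_⟩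
    rw [flat_zero_iff, ← h i]
    exact (contDiff_opr (hL i) hl).continuous.continuousAt
  | succ c ih =>
    intro K ι _ L hL hk
    obtain ⟨K', ι', _, L', h1, h2, h3, h4⟩ := ih (K + 1) (ι × Fin m)
      (fun p => td iS (b p.2) (L p.1)) (fun p => contDiff_td (hL _) _)
      fun w hw p => (hk w hw _).td (ha w hw) (hL _) _
    have hK : K ≤ K' := by omega
    refine ⟨K', ι' ⊕ ι, inferInstance, Sum.elim L' fun i w' => L i w' ∘L trunc hK, hK, ?_, ?_,
      fun w l hl h i => flat_succ (b := b) (contDiff_opr (hL i) hl) (h (.inr i)) fun β => ?_⟩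
    · rintro (i | i)
      exacts [h2 i, (hL i).clm_comp contDiff_const]
    · rintro w hw (i | i)
      exacts [h3 w hw i, (hk w hw i).trunc (ha w hw) (hL i) hK]
    · rw [td_apply (hL i) hl]
      exact h4 w l hl (fun j => h (.inl j)) (i, β)

theorem DL_sum (h : Adm iS ψ bb w) {ι : Type} (s : Finset ι) {L : ι → E → Jet K V G →L[ℝ] ℝ}
    (hL : ∀ i, ContDiff ℝ ∞ (L i)) (h0 : ∀ i, DL b iS ψ bb w (L i) = 0) :
    DL b iS ψ bb w (fun w' => ∑ i ∈ s, L i w') = 0 := by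
  classical
  induction s using Finset.induction_on with
  | empty => simpa using DL_smul (b := b) (K := K) h (L := fun _ => 0) contDiffAt_const 0
  | insert a t ha ih =>
    simp only [Finset.sum_insert ha]
    rw [DL_add h (hL a).contDiffAt (ContDiff.sum fun i _ => hL i).contDiffAt, h0, ih, add_zero]

variable (K V G) in
/-- the jets of the smooth maps which vanish at the origin -/
def Z0 : Submodule ℝ (Jet K V G) where
  carrier := {a | ∃ l : V → G, ContDiff ℝ ∞ l ∧ l 0 = 0 ∧ jet K l 0 = a}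
  add_mem' := by
    rintro _ _ ⟨l, h1, h2, rfl⟩ ⟨l', k1, k2, rfl⟩
    exact ⟨_, h1.add k1, by simp [h2, k2], jet_add (cda h1.contDiffAt _) (cda k1.contDiffAt _)⟩
  zero_mem' := ⟨fun _ => 0, contDiff_const, rfl, jet_eq_zero_iff.2 fun i _ => by simp⟩
  smul_mem' := by
    rintro c _ ⟨l, h1, h2, rfl⟩
    exact ⟨_, h1.const_smul c, by simp [h2], jet_smul c (cda h1.contDiffAt _)⟩

end CoreAux

open CoreAux

theorem b4core {𝒩 : Type} [NormedAddCommGroup 𝒩] [NormedSpace ℝ 𝒩] [FiniteDimensional ℝ 𝒩]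
    {Λ : E → 𝒩 →L[ℝ] Jet K V G →L[ℝ] ℝ} (hΛ : ContDiff ℝ ∞ Λ) (H : Submodule ℝ 𝒩) {O : Set E}
    (hO : IsOpen O) (hne : O.Nonempty) {ψ : E → V → E} {bb : E → V → G}
    (ha : ∀ w ∈ O, Adm iS (ψ w) (bb w) w)
    (hk : ∀ w ∈ O, ∀ h ∈ H, Kill b iS (ψ w) (bb w) w fun w' => Λ w' h) (c : ℕ) :
    ∃ O' : Set E, IsOpen O' ∧ O'.Nonempty ∧ O' ⊆ O ∧ ∀ w ∈ O', ∃ l : V → G, ContDiff ℝ ∞ l ∧
      l (iS w) = bb w (iS w) ∧ ∃ C : ℝ, ∀ᶠ w' in 𝓝 w, ∀ h ∈ H,
        |Λ w' h (jet K l (iS w'))| ≤ C * ‖h‖ * ‖w' - w‖ ^ c := by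
  let e := Module.finBasis ℝ H
  obtain ⟨K', ι, _, L, -, h1, h2, h3⟩ := prolong (b := b) ha c K _ (fun i w' => Λ w' (e i))
    (fun i => hΛ.clm_apply contDiff_const) fun w hw i => hk w hw _ (e i).2
  obtain ⟨O', o1, o2, o3, o4⟩ := rank_core (Z0 V G K') h1 hO hne
  refine ⟨O', o1, o2, o3, fun w hw => ?_⟩
  have hA := ha w (o3 hw)
  obtain ⟨_, ⟨l, l1, l2, rfl⟩, l3⟩ := o4 w hw (jet K' (bb w) (iS w)) fun g hg h => by
    have k := DL_sum (b := b) hA Finset.univ (L := fun i w' => g i w' • L i w')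
      (fun i => (hg i).smul (h1 i)) fun i => h2 w (o3 hw) i _ (hg i)
    rw [DL_ev hA (h.mono fun y hy l hl h0 => ?_)] at k
    · simpa [ContinuousLinearMap.sum_apply] using k
    · simpa [ContinuousLinearMap.sum_apply] using hy _ ⟨fun q => l (iS y + q),
        hl.comp (contDiff_const.add contDiff_id), by simpa using h0, jet_translate l _⟩
  have l4 : ContDiff ℝ ∞ fun q => l (q - iS w) := l1.comp (contDiff_id.sub contDiff_const)
  have l5 : ContDiff ℝ ∞ fun q => bb w q - l (q - iS w) := hA.sb.sub l4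
  have h4 := h3 w _ l5 fun i => by
    rw [jet_sub (cda hA.sb.contDiffAt _) (cda l4.contDiffAt _), map_sub, ← l3, sub_eq_zero,
      ← jet_translate _ (iS w)]
    simp only [add_sub_cancel_left]
  refine ⟨_, l5, by simp [l2], 1, ?_⟩
  have h5 : Flat c (fun w' => (ContinuousLinearMap.apply ℝ ℝ
      (jet K (fun q => bb w q - l (q - iS w)) (iS w')) ∘L Λ w') ∘L H.subtypeL) w :=
    flat_basis e h4
  filter_upwards [h5.bound one_pos] with y hy h hh
  refine (ContinuousLinearMap.le_of_opNorm_le _ hy (⟨h, hh⟩ : H)).trans_eq ?_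
  rw [norm_pow, norm_norm, mul_right_comm]
  rfl

end Vale.Agent.P207Z
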