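import Vale.Agent.P207Z.Char.Evo.B

/-!
# P207: the functional on the operators of evaluation (block CH-C2)
-/

set_option linter.all false

open Set Filter Topology Metric MeasureTheory Asymptotics
open scoped ContDiff

noncomputable section

namespace Vale.Agent.P207Z

open Vale.Agent.P207.N3 (JC)
open Lift

variable {E V G : Type} [NormedAddCommGroup E] [NormedSpace ℝ E] [FiniteDimensional ℝ E]
  [NormedAddCommGroup V] [NormedSpace ℝ V] [FiniteDimensional ℝ V]
  [NormedAddCommGroup G] [NormedSpace ℝ G] [FiniteDimensional ℝ G]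
  {m K : ℕ} {b : Module.Basis (Fin m) ℝ E} {iS : E →L[ℝ] V} {ψ : V → E} {bb : V → G} {w : E}

/-- comparison with the scalar functional -/
theorem Evo.cmp {F : Type} [NormedAddCommGroup F] [NormedSpace ℝ F] (hψ : ContDiff ℝ ∞ ψ)
    (b : Module.Basis (Fin m) ℝ E) (iS : E →L[ℝ] V) (w : E) (K : ℕ) {f : E → ℝ}
    (hf : ContDiff ℝ ∞ f) {ρ : ℝ} (hρ : 0 < ρ) {N : ℕ} (hN : N ≠ 0) (bs : List (Fin m)) :
    ∀ j, j + bs.length * K ≤ N → ∀ g : E → V → Du F, (ContDiff ℝ ∞ fun p : E × V => g p.1 p.2) →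
      ∃ C : ℝ, 0 ≤ C ∧ ∀ (z : E → V) (a : E → F) (η Q : ℝ), 0 < η → η ≤ min (ρ / 4) 1 ^ N →
        (∀ u ∈ ball w ρ, Pb (2 * N) (fun u => z u - iS u) u (η ^ 2)) → Pb N a w Q →
        Pb j (fun y => DD b ψ w (K + 1) (opr iS fun w' => f w' • evo iS K z a w') bs g y
          - Evo.DS b (fun u => u - w - ψ (z u)) (K + 1) bs (fun u => f u * g u (z u) (a u)) y) w
          (C * Q * η ^ (K + 1)) := by
  induction bs with
  | nil =>
    intro j hj g hg
    obtain ⟨C, hC, h⟩ := Evo.pb_rem iS hg w hρ hN K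
    obtain ⟨A, hA⟩ := pb_exists (hf.contDiffAt (x := w)) N
    have := hA.nonneg
    refine ⟨2 ^ N * (A * (2 ^ N * C)), by positivity, fun z a η Q h0 hη hz ha =>
      ((hA.mul ((h z η h0 hη hz w (mem_ball_self (half_pos hρ))).app ha)).congr
        (Eventually.of_forall fun y => ?_)).mono (by simpa using hj) (le_of_eq (by ring))⟩
    simp only [DD, Evo.DS, opr, evo, ContinuousLinearMap.smul_apply, ContinuousLinearMap.comp_apply,
      polyL_apply, ContinuousLinearMap.apply_apply, ContinuousLinearMap.sub_apply, smul_eq_mul,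
      mul_sub]
  | cons β bs ih =>
    intro j hj g hg
    have hg' : ∀ i : ℕ, ContDiff ℝ ∞ fun p : E × V =>
        ((b.repr (p.1 - w - ψ p.2) β) ^ i / (i.factorial : ℝ)) • g p.1 p.2 := fun i =>
      ((((Evo.co b β).contDiff.comp ((contDiff_fst.sub contDiff_const).sub
        (hψ.comp contDiff_snd))).pow i).div_const _).smul hg
    choose C hC h using fun i : ℕ => ih (j + K) (by rw [List.length_cons] at hj; linarith)
      (fun w' z => ((b.repr (w' - w - ψ z) β) ^ i / (i.factorial : ℝ)) • g w' z) (hg' i)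
    refine ⟨∑ i ∈ Finset.range (K + 1), ‖b β‖ ^ i * C i,
      Finset.sum_nonneg fun i _ => by have := hC i; positivity, fun z a η Q h0 hη hz ha => ?_⟩
    have sz : ContDiffAt ℝ ∞ z w := by
      simpa using (hz w (mem_ball_self hρ)).sm.add (iS.contDiff.contDiffAt (x := w))
    have sφ : ContDiffAt ℝ ∞ (fun u => u - w - ψ (z u)) w :=
      (contDiffAt_id.sub contDiffAt_const).sub (hψ.contDiffAt.comp w sz)
    have h3 := Pb.sum (Finset.range (K + 1)) fun i hi => Evo.pb_it_sub (e := b β) (j := j) (i := i)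
      ((h i z a η Q h0 hη hz ha).mono (by have := Finset.mem_range.1 hi; omega) le_rfl)
      (Evo.sm_DS sφ bs (hf.contDiffAt.mul (((hg' i).contDiffAt.comp w
        (contDiffAt_id.prodMk sz)).clm_apply ha.sm)))
    refine (h3.congr (Eventually.of_forall fun y => ?_)).le (le_of_eq ?_)
    · have e : ∀ i, Evo.cf b (fun u => u - w - ψ (z u)) β i (fun u => f u * g u (z u) (a u)) =
          fun u => f u * (((b.repr (u - w - ψ (z u)) β) ^ i / (i.factorial : ℝ)) • g u (z u))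
            (a u) := fun i => funext fun u => mul_left_comm _ _ _
      simp only [DD, Evo.DS, e, Finset.sum_sub_distrib]
    · rw [Finset.sum_mul, Finset.sum_mul]
      exact Finset.sum_congr rfl fun i _ => by ring

/-- P3 -/
theorem DL_evo {F : Type} [NormedAddCommGroup F] [NormedSpace ℝ F] [FiniteDimensional ℝ F]
    {bb : V → Du F} (h : Adm iS ψ bb w) (b : Module.Basis (Fin m) ℝ E) (K : ℕ) {f : E → ℝ}
    (hf : ContDiff ℝ ∞ f) {ρ : ℝ} (hρ : 0 < ρ) : ∃ C η₀ : ℝ, 0 < η₀ ∧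
      ∀ (z : E → V) (a : E → F) (η Q : ℝ), 0 < η → η ≤ η₀ →
        (∀ w' ∈ ball w ρ, Pb (4 * (m + 1) * (K + 2)) (fun u => z u - iS u) w' (η ^ 2) ∧
          Pb (4 * (m + 1) * (K + 2)) a w' Q ∧ (ψ (z w') = 0 → bb (z w') (a w') = 0)) →
        |DL b iS ψ bb w fun w' => f w' • evo iS K z a w'| ≤ C * Q * η ^ (K + 1) := by
  have hN : m * K + K + 2 ≠ 0 := by omega
  have hp : 2 * (m * K + K + 2) ≤ 4 * (m + 1) * (K + 2) := by nlinarith [Nat.zero_le (m * K)]
  obtain ⟨C₀, hC₀, h₀⟩ := Evo.cmp h.sψ b iS w K hf hρ hN (List.finRange m) 0 (by simp; omega)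
    (fun _ => bb) (h.sb.comp contDiff_snd)
  obtain ⟨C₁, hC₁, h₁⟩ := Evo.pb_rem iS (g := fun _ => ψ) (h.sψ.comp contDiff_snd) w hρ hN 0
  obtain ⟨C₂, hC₂, h₂⟩ := Evo.DS_fix b K (K + 1) le_rfl
  obtain ⟨A, hA, h₃⟩ := Evo.pb_fam (Θ := fun p : E × V => f p.1 • bb (iS p.1 + p.2))
    ((hf.comp contDiff_fst).smul (h.sb.comp ((iS.contDiff.comp contDiff_fst).add contDiff_snd)))
    w ρ (m * K + K + 2)
  obtain ⟨s, hs, hs1, hs2⟩ : ∃ s : ℝ, 0 < s ∧ s ≤ ρ / 8 ∧ s ≤ 1 / 2 :=
    ⟨min (ρ / 8) (1 / 2), by positivity, min_le_left _ _, min_le_right _ _⟩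
  refine ⟨C₀ + C₂ * C₁ ^ (K + 1) * (2 ^ (m * K + K + 2) * A),
    min (min (ρ / 4) 1 ^ (m * K + K + 2)) (s / (C₁ + 1)), by positivity,
    fun z a η Q h0 hη H => ?_⟩
  have hη1 := hη.trans (min_le_left _ _)
  have hε : C₁ * η ≤ s := by
    have := (le_div_iff₀ (by positivity)).1 (hη.trans (min_le_right _ _))
    linarith
  have hz := fun u hu => (H u hu).1.mono hp le_rfl
  have hφ : ∀ x ∈ ball w (ρ / 2), Pb (m * K + K + 2) (fun u => u - w - ψ (z u)) x (C₁ * η) :=
    fun x hx => ((h₁ z η h0 hη1 hz x hx).congr (Eventually.of_forall fun u => by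
      simp [poly, jet, h.ax])).le (by simp)
  obtain ⟨y, hy, e⟩ := Evo.exists_fix hε (hε.trans hs2) hs.le fun u hu =>
    (hφ u (closedBall_subset_ball (by linarith) hu)).mono (by omega) le_rfl
  have hb : ball y (2 * s) ⊆ ball w (ρ / 2) := fun u hu => by
    rw [mem_ball] at hu ⊢
    linarith [dist_triangle u y w, mem_closedBall.1 hy]
  have hb' : ball w (ρ / 2) ⊆ ball w ρ := ball_subset_ball (half_le_self hρ.le)
  have hη2 : η ^ 2 ≤ 1 :=
    pow_le_one₀ h0.le (hη1.trans (pow_le_one₀ (by positivity) (min_le_right _ _)))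
  have b1 := (h₀ z a η Q h0 hη1 hz ((H w (mem_ball_self hρ)).2.1.mono (by omega) le_rfl)).norm_le
  have b2 := h₂ _ (fun u => f u * bb (z u) (a u)) w y (2 * s) _ _ (by linarith)
    (mem_ball_comm.1 (closedBall_subset_ball (by linarith) hy)) (by linarith) e
    (by rw [(H y (hb' (hb (mem_ball_self (by linarith))))).2.2 (sub_eq_self.1 e.symm), mul_zero])
    (fun u hu => hφ u (hb hu)) fun u hu => ((h₃ _ u (ball_subset_closedBall (hb' (hb hu)))
      ((hz u (hb' (hb hu))).mono (by omega) hη2)).app ((H u (hb' (hb hu))).2.1.mono (by omega)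
        le_rfl)).congr (Eventually.of_forall fun u => by simp)
  rw [Real.norm_eq_abs] at b1
  refine (abs_sub_abs_le_abs_sub _ _ |> fun t => sub_le_iff_le_add.1 (t.trans b1)).trans
    ((add_le_add le_rfl b2).trans (le_of_eq (by ring)))

end Vale.Agent.P207Z
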