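import Vale.Agent.P207Z.Char.MJ
import Vale.Agent.P207Z.Char.Core
import Vale.Agent.P207Z.Char.Evo
import Vale.Agent.P207Z.Char.Apx
import Vale.Agent.P207Z.Char.B4.Det

/-!
# P207: the dual section kills the hull (block CH-C4)
-/

set_option linter.all false

open Set Filter Topology Metric MeasureTheory Asymptotics
open scoped ContDiff

noncomputable section

namespace Vale.Agent.P207Z

open Vale.Agent.P207.N3 (JC)
open Lift

variable {Γ X B E V : Type} [Group Γ] [Countable Γ] [MetricSpace X] [ProperSpace X]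
  [MulAction Γ X] [IsIsometricSMul Γ X] [MeasurableSpace X] [BorelSpace X]
  [TopologicalSpace B] [CompactSpace B] [T2Space B] [SecondCountableTopology B] [MulAction Γ B]
  [ContinuousConstSMul Γ B] [MeasurableSpace B] [BorelSpace B]
  [NormedAddCommGroup E] [InnerProductSpace ℝ E] [FiniteDimensional ℝ E]
  [NormedAddCommGroup V] [NormedSpace ℝ V] [FiniteDimensional ℝ V]
  {F : Type} [NormedAddCommGroup F] [NormedSpace ℝ F] [FiniteDimensional ℝ F]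
  {S : Sys Γ X B E V} {𝔉 : Bun S F} {Y : Type} [MeasurableSpace Y] [MulAction Γ Y]

namespace B4

/-- the data of the functional at a point of the stable axis -/
theorem data {s : CSec 𝔉} (β : USec s) {x y : X} {w : E} (hw : w ∈ ball (0 : E) 1)
    (hy : S.pt y = S.c x (S.iS w)) : ∃ (ψ : V → E) (bb : V → Du F), Adm S.iS ψ bb w ∧
      (∀ᶠ z in 𝓝 (S.iS w), ψ z = 0 → bb z (s.e x z) = 0) ∧
      bb (S.iS w) = β.β y 0 ∘L 𝔉.A x y (S.iS w) := by
  have h1 := S.iS_mem.2 hw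
  have h2 := Sys.zero_dom' h1 hy
  have h3 := Sys.τ_zero' h1 hy
  have h4 : S.iS w ∈ S.dom x y := h3 ▸ Sys.τ_dom h2
  have h5 : S.τ x y (S.iS w) = 0 := by rw [← h3, Sys.τ_τ h2]
  have he : S.ep y = S.ep x := (congrArg Prod.snd hy).trans (S.c_iS x hw)
  let U : Set V := {z | z ∈ S.dom x y ∧ S.iS (S.pS (S.τ x y z)) ∈ S.dom y x}
  have hU : U ∈ 𝓝 (S.iS w) := by
    refine inter_mem (Sys.dom_nhds h4) ?_
    have : ContinuousAt (fun z => S.iS (S.pS (S.τ x y z))) (S.iS w) :=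
      (S.iS.continuous.comp S.pS.continuous).continuousAt.comp (Sys.continuousAt_τ h4)
    exact this.preimage_mem_nhds (by rw [h5, map_zero, map_zero]; exact Sys.dom_nhds h2)
  have hu : ∀ z ∈ S.dom x y, S.pU (S.τ x y z) ∈ ball (0 : E) 1 := fun z hz =>
    mem_ball_zero_iff.2 ((S.norm_pU_le _).trans_lt (mem_ball_zero_iff.1 (Sys.τ_ball hz)))
  obtain ⟨g, g1, g2, g3⟩ := cutoff'
    (f := fun z => S.pS (S.τ y x (S.iS (S.pS (S.τ x y z)))) - S.pS z) hU fun z hz =>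
      (S.pS.contDiff.contDiffAt.comp z ((Sys.contDiffAt_τ hz.2).comp z
        ((S.iS.contDiff.comp S.pS.contDiff).contDiffAt.comp z (Sys.contDiffAt_τ hz.1)))).sub
        S.pS.contDiff.contDiffAt
  obtain ⟨bb, b1, b2, -⟩ := cutoff'
    (f := fun z => β.β y (S.pU (S.τ x y z)) ∘L 𝔉.A x y z) hU fun z hz =>
      ((β.sm y _ (hu z hz.1)).comp z
        (S.pU.contDiff.contDiffAt.comp z (Sys.contDiffAt_τ hz.1))).clm_comp (𝔉.contDiffAt hz.1)
  refine ⟨fun z => g z + (S.pS z - w), bb, ⟨g1.add (S.pS.contDiff.sub contDiff_const), b1,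
    fun w' => ?_⟩, ?_, by simp only [b2.self_of_nhds, h5, map_zero]⟩
  · rw [g3 _ fun hz => ?_, zero_add, S.pS_iS]
    rw [S.iS_pS ((Sys.pU_τ he.symm hz.1).2 (S.pU_iS w')), Sys.τ_τ hz.1, sub_self]
  · filter_upwards [g2, b2, hU] with z g2 b2 hz h0
    rw [g2, sub_add_sub_cancel, sub_eq_zero] at h0
    have h6 := S.iS_pS ((Sys.pU_τ he hz.2).2 (S.pU_iS _))
    have h7 := Sys.τ_τ hz.2
    rw [← h6, h0, h5] at h7
    have h8 : S.pS (S.τ x y z) = 0 := by rw [← S.pS_iS (S.pS _), ← h7, map_zero]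
    rw [b2, ContinuousLinearMap.comp_apply, ← s.eqv x y z hz.1]
    have h9 := β.kill y _ (hu z hz.1)
    rwa [S.iU_pU h8] at h9

/-- from the chart of `x` to the chart centred at the point -/
theorem back {s : CSec 𝔉} {x y : X} {q : V} (hq : q ∈ ball (0 : V) 1) (hy : S.pt y = S.c x q)
    {l : V → Du F} (hl : ContDiff ℝ ∞ l) {a : Du F} (h0 : l q = a ∘L 𝔉.A x y q) {c : ℕ}
    (h : (fun z => l z (s.e x z)) =O[𝓝 q] fun z => ‖z - q‖ ^ c) :
    ∃ l', s.Sm c y l' ∧ l' 0 = a := by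
  have h2 := Sys.zero_dom' hq hy
  have h3 := Sys.τ_zero' hq hy
  refine ⟨𝔉.pull y x l, ⟨𝔉.contDiffAt_pull h2 hl.contDiffAt, ?_⟩, ?_⟩
  · have h4 : Tendsto (S.τ y x) (𝓝 0) (𝓝 q) := h3 ▸ Sys.continuousAt_τ h2
    have h5 := ((Sys.differentiableAt_τ h2).isBigO_sub.norm_norm).pow c
    simp only [h3, sub_zero] at h5
    refine ((h.comp_tendsto h4).trans h5).congr' ?_ EventuallyEq.rfl
    filter_upwards [Sys.dom_nhds h2] with z hz
    rw [Function.comp, s.eqv y x z hz]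
    rfl
  · have h4 := 𝔉.inv h2
    rw [Bun.pull, h3, h0, ContinuousLinearMap.comp_assoc]
    rw [h3] at h4
    exact (congrArg (a ∘L ·) h4).trans a.comp_id

theorem along {s : CSec 𝔉} (β : USec s) {c : ℕ} {x y : X} (hp : S.pt y = S.pt x)
    (h : ∃ l, s.Sm c x l ∧ l 0 = β.β x 0) : ∃ l, s.Sm c y l ∧ l 0 = β.β y 0 := by
  obtain ⟨l, h1, h2⟩ := h
  obtain ⟨t, ht⟩ := β.eqv x y hp.symm
  have h3 := h1.pull hp
  refine ⟨fun z => t • 𝔉.pull y x l z, ⟨h3.1.const_smul t, h3.2.const_mul_left t⟩, ?_⟩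
  have h4 := 𝔉.inv (Sys.zero_dom hp)
  rw [Sys.τ_zero hp] at h4
  show t • 𝔉.pull y x l 0 = _
  rw [Bun.pull, Sys.τ_zero hp, h2, ← ContinuousLinearMap.smul_comp, ← ht,
    ContinuousLinearMap.comp_assoc]
  exact (congrArg (β.β y 0 ∘L ·) h4).trans (β.β y 0).comp_id

/-- the choice of the scales -/
theorem scal {𝒩 : Type} [NormedAddCommGroup 𝒩] [NormedSpace ℝ 𝒩] [FiniteDimensional ℝ 𝒩]
    {K m c : ℕ} (b : Module.Basis (Fin m) ℝ E) {Λ : E → 𝒩 →L[ℝ] Jet K V (Du F) →L[ℝ] ℝ}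
    {e : V → F} {r α Q G C δ σ : ℝ} (hr : 0 < r) (hQ : 1 ≤ Q) (hG : 1 ≤ G) (hC : 1 ≤ C)
    (hδ : 0 < δ) (hσ : 0 < σ) (h1 : Q * δ ≤ 1 / 2) (h2 : Q * σ ≤ 1 / 2) (h3 : δ ^ α = σ ^ 4)
    (h4 : σ ^ K ≤ δ ^ c) (hΛ : ∀ w ∈ ball (0 : E) r, ContDiffAt ℝ ∞ Λ w)
    (hA : ∀ (n : ℕ) (d : ℝ) (z : V), 0 < d → C * Q ^ n * d ^ α ≤ 1 → ‖S.pS z‖ < r / 2 →
      ‖S.pU z‖ ≤ d → ∃ (ζ : E → V) (w₀ : E) (f : 𝒩),
        ζ w₀ = z ∧ ‖w₀ - S.pS z‖ ≤ C * Q ^ n * d ∧ ‖f‖ ≤ C * G ^ n ∧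
        ∀ w ∈ ball (0 : E) r, ζ w ∈ ball (0 : V) 1 ∧
          Pb (4 * (m + 1) * (K + 2)) (fun u => ζ u - S.iS u) w (C * Q ^ n * d ^ α) ∧
          Pb (4 * (m + 1) * (K + 2)) (fun u => e (ζ u)) w (C * Q ^ n) ∧
          Pb (4 * (m + 1) * (K + 2)) (fun u => evo S.iS K ζ (fun u => e (ζ u)) u - Λ u f) w
            (C * (Q ^ n * (d ^ α) ^ (K + 1) + (δ ^ c) ^ n)))
    {ψ : E → V → E} {bb : E → V → Du F} (ha : ∀ w ∈ ball (0 : E) (r / 2), Adm S.iS (ψ w) (bb w) w)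
    (hk : ∀ w ∈ ball (0 : E) (r / 2), ∀ᶠ z in 𝓝 (S.iS w), ψ w z = 0 → bb w z (e z) = 0) :
    ∃ O : Set E, IsOpen O ∧ O.Nonempty ∧ O ⊆ ball 0 (r / 2) ∧ ∀ w ∈ O, ∃ l : V → Du F,
      ContDiff ℝ ∞ l ∧ l (S.iS w) = bb w (S.iS w) ∧
        (fun z => l z (e z)) =O[𝓝 (S.iS w)] fun z => ‖z - S.iS w‖ ^ c := by
  obtain ⟨Λ', g1, g2, -⟩ := cutoff (f := Λ) (z := 0) (half_pos hr)
    (by linarith : r / 2 < 3 * r / 4) fun q hq => hΛ q (closedBall_subset_ball (by linarith) hq)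
  have hδ1 : δ ≤ 1 / 2 := (le_mul_of_one_le_left hδ.le hQ).trans h1
  have hσ1 : σ ≤ 1 / 2 := (le_mul_of_one_le_left hσ.le hQ).trans h2
  have ht := tendsto_pow_atTop_nhds_zero_of_lt_one (r := (1 / 2 : ℝ)) (by norm_num) (by norm_num)
  obtain ⟨c', hc'⟩ := ((ht.const_mul G).eventually
    (ge_mem_nhds (by simpa only [mul_zero] using pow_pos hδ c))).exists
  have hs : ∀ n : ℕ, σ ^ n ≤ 1 := fun n => pow_le_one₀ hσ.le (by linarith)
  have k1 : ∀ n : ℕ, Q ^ n * σ ^ n ≤ (1 / 2) ^ n := fun n => by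
    rw [← mul_pow]
    exact pow_le_pow_left₀ (by positivity) h2 n
  have k2 : ∀ n : ℕ, Q ^ n * (σ ^ n) ^ (K + 1) ≤ (δ ^ c) ^ n := fun n => by
    rw [pow_succ', ← mul_assoc, ← pow_mul, mul_comm n K, pow_mul]
    exact (mul_le_of_le_one_left (by positivity) ((k1 n).trans (pow_le_one₀ (by norm_num)
      (by norm_num)))).trans (pow_le_pow_left₀ (by positivity) h4 n)
  have k3 : 0 ≤ C * (2 * C) ^ c' := by positivity
  obtain ⟨O, hO, hne, hsub, h5⟩ := det (iS := S.iS) (e := e) b g1 (half_pos hr) ha hk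
    (η := fun n => σ ^ n) (q := fun n => C * Q ^ n) (a := fun n => 2 * C * (1 / 2) ^ n)
    (ε := fun n => (2 * C + C * (2 * C) ^ c') * (δ ^ c) ^ n) (g := fun n => C * G ^ n) (c := c')
    (fun n => pow_pos hσ n) (tendsto_pow_atTop_nhds_zero_of_lt_one hσ.le (by linarith))
    (by simpa only [mul_zero] using ht.const_mul (2 * C))
    (fun n => by
      rw [mul_assoc]
      exact mul_le_mul (by linarith) (k2 n) (by positivity) (by positivity))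
    (fun n => by
      calc C * G ^ n * (2 * C * (1 / 2) ^ n) ^ c' = C * (2 * C) ^ c' * (G * (1 / 2) ^ c') ^ n := by
            rw [mul_pow (2 * C), mul_pow G, ← pow_mul, ← pow_mul, mul_comm n c']
            ring
        _ ≤ _ := mul_le_mul (by linarith) (pow_le_pow_left₀ (by positivity) hc' n) (by positivity)
            (by positivity))
  refine ⟨O, hO, hne, hsub, fun w hw => ?_⟩
  obtain ⟨l, l1, l2, C', l3⟩ := h5 w hw
  refine ⟨l, l1, l2, isBigO_of_scales hδ (by linarith)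
    (C := C' * (2 * C + C * (2 * C) ^ c')) ?_⟩
  have hw' := mem_ball_zero_iff.1 (hsub hw)
  filter_upwards [l3, (ht.const_mul C).eventually (ge_mem_nhds (by simp : C * 0 < 1)),
    ht.eventually (gt_mem_nhds (sub_pos.2 hw'))] with n l3 l4 l5 z hz
  have e1 : (δ ^ n) ^ α = σ ^ n * σ ^ n * (σ ^ n) ^ 2 := by
    rw [← Real.rpow_pow_comm hδ.le, h3]
    ring
  have k4 : C * Q ^ n * (δ ^ n) ^ α ≤ (σ ^ n) ^ 2 := by
    rw [e1, ← mul_assoc]
    refine mul_le_of_le_one_left (by positivity) ?_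
    calc _ = C * (Q ^ n * σ ^ n) * σ ^ n := by ring
      _ ≤ 1 := mul_le_one₀ ((mul_le_mul_of_nonneg_left (k1 n) (by positivity)).trans l4)
          (by positivity) (hs n)
  have k5 : δ ^ n ≤ (1 / 2) ^ n := pow_le_pow_left₀ hδ.le hδ1 n
  have k6 : ‖S.pS z - w‖ ≤ δ ^ n := by
    simpa only [map_sub, S.pS_iS] using (S.norm_pS_le (z - S.iS w)).trans hz
  obtain ⟨ζ, u, f, rfl, a1, a2, a3⟩ := hA n (δ ^ n) z (pow_pos hδ n)
    (k4.trans (pow_le_one₀ (by positivity) (hs n))) (by linarith [norm_sub_norm_le (S.pS z) w])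
    (by simpa only [map_sub, S.pU_iS, sub_zero] using (S.norm_pU_le (z - S.iS w)).trans hz)
  rw [mul_assoc]
  refine l3 ζ u f (fun w' hw' => ?_) ?_ a2
  · obtain ⟨-, b1, b2, b3⟩ := a3 w' (ball_subset_ball (half_le_self hr.le) hw')
    refine ⟨b1.le k4, b2, (b3.le ?_).congr ?_⟩
    · have k7 : Q ^ n * ((δ ^ n) ^ α) ^ (K + 1) ≤ (δ ^ c) ^ n := by
        refine (mul_le_mul_of_nonneg_left (pow_le_pow_left₀ (by positivity) ?_ _)
          (by positivity)).trans (k2 n)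
        rw [e1, mul_assoc]
        exact mul_le_of_le_one_right (by positivity)
          (mul_le_one₀ (hs n) (by positivity) (pow_le_one₀ (by positivity) (hs n)))
      have k8 : 0 ≤ C * (2 * C) ^ c' * (δ ^ c) ^ n := by positivity
      nlinarith
    · filter_upwards [isOpen_ball.mem_nhds hw'] with v hv
      rw [g2 v (ball_subset_closedBall hv)]
  · have k7 : C * Q ^ n * δ ^ n ≤ C * (1 / 2) ^ n := by
      rw [mul_assoc, ← mul_pow]
      exact mul_le_mul_of_nonneg_left (pow_le_pow_left₀ (by positivity) h1 n) (by positivity)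
    have k8 : (1 / 2 : ℝ) ^ n ≤ C * (1 / 2) ^ n := le_mul_of_one_le_left (by positivity) hC
    linarith [norm_sub_le_norm_sub_add_norm_sub u (S.pS (ζ u)) w]

end B4

theorem Sec.b4 (s : Sec 𝔉) (P : Prob S Y) (β : USec s.toC) (c : ℕ) :
    ∀ᵐ x ∂S.μ, ∃ l, s.toC.Sm c x l ∧ l 0 = β.β x 0 := by
  refine (P.zero_one (s.toC.meas_val c β.meas)
    (Eventually.of_forall fun x y hp => ⟨B4.along β hp.symm, B4.along β hp⟩)
    fun g => Eventually.of_forall fun x => by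
      simp only [s.toC.sm_smul, β.smul]).resolve_right fun hn => ?_
  obtain ⟨r, α, hr, hr1, hα, h1⟩ := s.apx P
  obtain ⟨K, h2⟩ := B4.exists_param hα c
  obtain ⟨Q, hQ, h3⟩ := h1 K (4 * (Module.finrank ℝ E + 1) * (K + 2))
  obtain ⟨δ, σ, hδ, hσ, h4, h5, h6, h7⟩ := h2 Q hQ
  obtain ⟨N, G, hG, h8⟩ := h3 (δ ^ c) (pow_pos hδ c)
  obtain ⟨x, ⟨Λ, C, hC, hΛ, hA⟩, hx⟩ := Sys.ae_exists (h8.and (Sys.ae_alongS hn))
  have hs : ball (0 : E) (r / 2) ⊆ ball 0 1 := ball_subset_ball (by linarith)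
  have h9 : ∀ w : E, ∃ (y : X) (ψ : V → E) (bb : V → Du F), w ∈ ball (0 : E) (r / 2) →
      S.pt y = S.c x (S.iS w) ∧ Adm S.iS ψ bb w ∧
        (∀ᶠ z in 𝓝 (S.iS w), ψ z = 0 → bb z (s.e x z) = 0) ∧
        bb (S.iS w) = β.β y 0 ∘L 𝔉.A x y (S.iS w) := fun w => by
    by_cases hw : w ∈ ball (0 : E) (r / 2)
    · obtain ⟨y, hy⟩ := S.exists_pt_c x (S.iS_mem.2 (hs hw))
      obtain ⟨ψ, bb, h⟩ := B4.data β (hs hw) hy
      exact ⟨y, ψ, bb, fun _ => ⟨hy, h⟩⟩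
    · exact ⟨x, 0, 0, fun h => absurd h hw⟩
  choose y ψ bb h9 using h9
  obtain ⟨O, hO, hne, hsub, h10⟩ := B4.scal (Module.finBasis ℝ E) hr hQ hG hC hδ hσ h4 h5 h6 h7 hΛ
    hA (fun w hw => (h9 w hw).2.1) fun w hw => (h9 w hw).2.2.1
  obtain ⟨w, hw, h11⟩ := (hx 1).dense' hO hne (hsub.trans hs) (hsub.trans hs)
  obtain ⟨l, l1, l2, l3⟩ := h10 w hw
  obtain ⟨g1, -, -, g2⟩ := h9 w (hsub hw)
  exact h11 _ g1 (B4.back (s := s.toC) (S.iS_mem.2 (hs (hsub hw))) g1 l1 (l2.trans g2) l3)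

end Vale.Agent.P207Z
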