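import Vale.Agent.P207Z.Rev
import Vale.Agent.P207Z.ErgS
import Vale.Agent.P207Z.Stay
import Vale.Agent.P207Z.Lift.Defs

/-!
# P207: the hull of an invariant section (block CHAR), definitions
-/

set_option linter.all false

open Set Filter Topology Metric MeasureTheory Asymptotics
open scoped ContDiff

noncomputable section

namespace Vale.Agent.P207Z

open Vale.Agent.P207.N3 (JC)
open Lift

/-- the dual space -/
abbrev Du (F : Type) [NormedAddCommGroup F] [NormedSpace ℝ F] : Type := F →L[ℝ] ℝ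

section Gen

variable {E V G : Type} [NormedAddCommGroup E] [NormedSpace ℝ E] [NormedAddCommGroup V]
  [NormedSpace ℝ V] [NormedAddCommGroup G] [NormedSpace ℝ G]

/-- short cuts for the search of instances -/
instance jetGroup {K : ℕ} : NormedAddCommGroup (Jet K V G) := inferInstance
instance jetSpace {K : ℕ} : NormedSpace ℝ (Jet K V G) := inferInstance

/-- the jet at `q` of the polynomial of a jet -/
def JL (D : ℕ) (V G : Type) [NormedAddCommGroup V] [NormedSpace ℝ V] [NormedAddCommGroup G]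
    [NormedSpace ℝ G] (q : V) : Jet D V G →L[ℝ] Jet D V G :=
  jetL D (fun h => q + h) fun _ => ContinuousLinearMap.id ℝ G

/-- the derivative in the direction `v` -/
def dd (v : E) (u : E → ℝ) (y : E) : ℝ := fderiv ℝ u y v

/-- the functional of Lagrange and Buermann, one variable at a time -/
def DD {m : ℕ} (b : Module.Basis (Fin m) ℝ E) (ψ : V → E) (w : E) (K' : ℕ)
    (Lc : (E → V → G) → E → ℝ) : List (Fin m) → (E → V → G) → E → ℝ
  | [], g => Lc g
  | β :: bs, g => fun y => ∑ i ∈ Finset.range K', (dd (b β))^[i] (DD b ψ w K' Lc bs fun w' z =>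
      ((b.repr (w' - w - ψ z) β) ^ i / (i.factorial : ℝ)) • g w' z) y

/-- a differential operator of order `K` along the axis `iS` -/
def opr (iS : E →L[ℝ] V) {K : ℕ} (L : E → Jet K V G →L[ℝ] ℝ) (g : E → V → G) (w' : E) : ℝ :=
  L w' (jet K (g w') (iS w'))

/-- the value of the functional on the operator `L` -/
def DL {m : ℕ} (b : Module.Basis (Fin m) ℝ E) (iS : E →L[ℝ] V) (ψ : V → E) (bb : V → G) (w : E)
    {K : ℕ} (L : E → Jet K V G →L[ℝ] ℝ) : ℝ :=
  DD b ψ w (K + 1) (opr iS L) (List.finRange m) (fun _ => bb) w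

/-- the functional kills all the multiples of `L` -/
def Kill {m : ℕ} (b : Module.Basis (Fin m) ℝ E) (iS : E →L[ℝ] V) (ψ : V → E) (bb : V → G) (w : E)
    {K : ℕ} (L : E → Jet K V G →L[ℝ] ℝ) : Prop :=
  ∀ f : E → ℝ, ContDiff ℝ ∞ f → DL b iS ψ bb w (fun w' => f w' • L w') = 0

/-- the data of the functional -/
structure Adm (iS : E →L[ℝ] V) (ψ : V → E) (bb : V → G) (w : E) : Prop where
  sψ : ContDiff ℝ ∞ ψ
  sb : ContDiff ℝ ∞ bb
  ax : ∀ w', ψ (iS w') = w' - w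

/-- the jet of the derivative in the direction `u` -/
def shf (K : ℕ) (u : V) : Jet (K + 1) V G →L[ℝ] Jet K V G :=
  ContinuousLinearMap.pi fun i : Fin (K + 1) =>
    ((ContinuousLinearMap.apply ℝ (V [×(i : ℕ)]→L[ℝ] G) u) ∘L
      (continuousMultilinearCurryLeftEquiv ℝ (fun _ : Fin ((i : ℕ) + 1) => V) G
        : (V [×((i : ℕ) + 1)]→L[ℝ] G) →L[ℝ] V →L[ℝ] V [×(i : ℕ)]→L[ℝ] G)) ∘L
      ContinuousLinearMap.proj (R := ℝ)
        (φ := fun i : Fin (K + 1 + 1) => V [×(i : ℕ)]→L[ℝ] G) i.succ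

/-- the total derivative of an operator -/
def td (iS : E →L[ℝ] V) {K : ℕ} (v : E) (L : E → Jet K V G →L[ℝ] ℝ) (w' : E) :
    Jet (K + 1) V G →L[ℝ] ℝ :=
  fderiv ℝ L w' v ∘L trunc (Nat.le_succ K) + L w' ∘L shf K (iS v)

/-- evaluation of the Taylor polynomial at the point `z w'`, on the vector `a w'` -/
def evo {F : Type} [NormedAddCommGroup F] [NormedSpace ℝ F] (iS : E →L[ℝ] V) (K : ℕ) (z : E → V)
    (a : E → F) (w' : E) : Jet K V (Du F) →L[ℝ] ℝ :=
  ContinuousLinearMap.apply ℝ ℝ (a w') ∘L polyL K V (Du F) (z w' - iS w')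

end Gen

variable {Γ X B E V : Type} [Group Γ] [Countable Γ] [MetricSpace X] [ProperSpace X]
  [MulAction Γ X] [IsIsometricSMul Γ X] [MeasurableSpace X] [BorelSpace X]
  [TopologicalSpace B] [CompactSpace B] [T2Space B] [SecondCountableTopology B] [MulAction Γ B]
  [ContinuousConstSMul Γ B] [MeasurableSpace B] [BorelSpace B]
  [NormedAddCommGroup E] [InnerProductSpace ℝ E] [FiniteDimensional ℝ E]
  [NormedAddCommGroup V] [NormedSpace ℝ V] [FiniteDimensional ℝ V]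
  {F : Type} [NormedAddCommGroup F] [NormedSpace ℝ F] [FiniteDimensional ℝ F]
  {S : Sys Γ X B E V}

/-- a continuous invariant section -/
structure CSec (𝔉 : Bun S F) where
  e : X → V → F
  cont : ContinuousOn (fun p : X × V => e p.1 p.2) (univ ×ˢ ball 0 1)
  smul : ∀ (g : Γ) x, ∀ q ∈ ball (0 : V) 1, e (g • x) q = e x q
  eqv : ∀ x y, ∀ q ∈ S.dom x y, e y (S.τ x y q) = 𝔉.A x y q (e x q)

variable {𝔉 : Bun S F}

def Sec.toC (s : Sec 𝔉) : CSec 𝔉 := ⟨s.e, s.cont, s.smul, s.eqv⟩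

def CSec.rev (s : CSec 𝔉) : CSec 𝔉.rev :=
  ⟨s.e, s.cont, s.smul, by rw [Sys.rev_dom, Sys.rev_τ]; exact s.eqv⟩

/-- transport of the jets of dual sections, from the chart of `y` at `τ x y q` to the chart of `x`
at `q` -/
def Bun.JT (𝔉 : Bun S F) (L : ℕ) (x y : X) (q : V) : Jet L V (Du F) →L[ℝ] Jet L V (Du F) :=
  jetL L (fun h => S.τ x y (q + h) - S.τ x y q)
    fun h => (ContinuousLinearMap.compL ℝ F F ℝ).flip (𝔉.A x y (q + h))

/-- `l` is smooth and kills `s` to the order `c` -/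
def CSec.Sm (s : CSec 𝔉) (c : ℕ) (x : X) (l : V → Du F) : Prop :=
  ContDiffAt ℝ ∞ l 0 ∧ (fun z => l z (s.e x z)) =O[𝓝 0] fun z : V => ‖z‖ ^ c

/-- the jets of the dual sections which kill `s` to the order `c` -/
def CSec.MJ (s : CSec 𝔉) (K c : ℕ) (x : X) : Submodule ℝ (Jet K V (Du F)) :=
  Submodule.span ℝ {j | ∃ l, s.Sm c x l ∧ jet K l 0 = j}

/-- witnesses with the constant `n` -/
def CSec.Wit (s : CSec 𝔉) (K c n : ℕ) (x : X) : Prop :=
  ∀ j ∈ s.MJ K c x, ∃ l : V → Du F, jet K l 0 = j ∧ ∀ z ∈ ball (0 : V) (rad n),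
    Pb (K + 1) l z (n * ‖j‖) ∧ |l z (s.e x z)| ≤ n * ‖j‖ * ‖z‖ ^ c

/-- a dual section, smooth along the unstable axes, which kills `s` -/
structure USec (s : CSec 𝔉) where
  β : X → E → Du F
  sm : ∀ y, ∀ u ∈ ball (0 : E) 1, ContDiffAt ℝ ∞ (β y) u
  kill : ∀ y, ∀ u ∈ ball (0 : E) 1, β y u (s.e y (S.iU u)) = 0
  smul : ∀ (g : Γ) y, β (g • y) 0 = β y 0
  eqv : ∀ x y, S.pt x = S.pt y → ∃ c : ℝ, β y 0 ∘L 𝔉.A x y 0 = c • β x 0
  meas : Measurable fun y => β y 0

/-- the orthogonal projection for a fixed Euclidean structure -/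
def cproj (H : Submodule ℝ F) : F →L[ℝ] F :=
  (toEuclidean (E := F)).symm.toContinuousLinearMap ∘L
    (H.map (toEuclidean (E := F)).toLinearEquiv.toLinearMap).starProjection ∘L
      (toEuclidean (E := F)).toContinuousLinearMap

/-- a time step for the contraction of the stable axes -/
structure Sys.Step (S : Sys Γ X B E V) where
  T : ℝ
  ρ : ℝ
  C : ℝ
  T_pos : 1 ≤ T
  ρ_pos : 0 < ρ
  ρ_le : ρ ≤ 1 / 4
  C_pos : 1 ≤ C
  stay : ∀ x, ∀ t ≥ (0 : ℝ), ∀ w ∈ ball (0 : E) ρ, S.Stay (1 / 4) x t (S.iS w) ∧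
    ‖S.τ x (S.φ t x) (S.iS w)‖ ≤ C * Real.exp (-S.lam * t) * ‖w‖
  contr : ∀ x, ∀ w ∈ ball (0 : E) ρ,
    ‖fderiv ℝ (fun w => S.pS (S.τ x (S.φ T x) (S.iS w))) w‖ ≤ 1 / 2

/-- the orbit -/
def Sys.Step.o (St : S.Step) (x : X) (k : ℕ) : X := S.φ (k * St.T) x

/-- the contractions of the stable axes along the orbit -/
def Sys.Step.θ (St : S.Step) (x : X) (k : ℕ) (w : E) : E :=
  S.pS (S.τ (St.o x k) (St.o x (k + 1)) (S.iS w))

end Vale.Agent.P207Z
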