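import Vale.Agent.P207Z.Char.Axis
import Vale.Agent.P207Z.JetM

/-!
# P207: the hull is a system of equations of class S (block CH-E)
-/

set_option linter.all false

open Set Filter Topology Metric MeasureTheory Asymptotics
open scoped ContDiff

noncomputable section

namespace Vale.Agent.P207Z

open Vale.Agent.P207.N3 (JC)
open Lift

namespace Hullx

section Lin

variable {A A' A'' V F : Type} [NormedAddCommGroup A] [NormedSpace ℝ A] [FiniteDimensional ℝ A]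
  [NormedAddCommGroup A'] [NormedSpace ℝ A'] [NormedAddCommGroup A''] [NormedSpace ℝ A'']
  [NormedAddCommGroup V] [NormedSpace ℝ V] [FiniteDimensional ℝ V]
  [NormedAddCommGroup F] [NormedSpace ℝ F] [FiniteDimensional ℝ F] {k : ℕ}

/-- linear lifts with a bound -/
theorem exists_lift (A A' : Type) [NormedAddCommGroup A] [NormedSpace ℝ A] [FiniteDimensional ℝ A]
    [NormedAddCommGroup A'] [NormedSpace ℝ A'] : ∃ C : ℝ, 0 ≤ C ∧
      ∀ (H : Submodule ℝ A') (T : A' →L[ℝ] A'') (p : A →L[ℝ] A'') (n : ℝ), 0 ≤ n →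
        (∀ a, ∃ v ∈ H, T v = p a ∧ ‖v‖ ≤ n * ‖a‖) →
        ∃ σ : A →L[ℝ] A', (∀ a, σ a ∈ H) ∧ (∀ a, T (σ a) = p a) ∧ ‖σ‖ ≤ C * n := by
  let b := Module.finBasis ℝ A
  obtain ⟨C, hC, h⟩ := b.exists_opNorm_le (F := A')
  have h0 : 0 ≤ ∑ i, ‖b i‖ := Finset.sum_nonneg fun _ _ => norm_nonneg _
  refine ⟨C * ∑ i, ‖b i‖, by positivity, fun H T p n hn hv => ?_⟩
  choose v h1 h2 h3 using fun i => hv (b i)
  refine ⟨b.constrL v, fun a => ?_, fun a => ?_, ?_⟩
  · rw [← b.sum_repr a, map_sum]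
    exact H.sum_mem fun i _ => by
      rw [map_smul, b.constrL_basis]
      exact H.smul_mem _ (h1 i)
  · rw [← b.sum_repr a]
    simp only [map_sum, map_smul, b.constrL_basis, h2]
  · rw [mul_assoc, mul_comm _ n]
    refine h (by positivity) fun i => ?_
    rw [b.constrL_basis]
    exact (h3 i).trans (mul_le_mul_of_nonneg_left (Finset.single_le_sum
      (f := fun i => ‖b i‖) (fun _ _ => norm_nonneg _) (Finset.mem_univ i)) hn)

theorem exists_rinv {T : A' →L[ℝ] A''} {p : A →L[ℝ] A''} (h : ∀ a, ∃ v, T v = p a) :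
    ∃ σ : A →L[ℝ] A', T ∘L σ = p := by
  let b := Module.finBasis ℝ A
  choose v hv using fun i => h (b i)
  refine ⟨b.constrL v, ContinuousLinearMap.ext fun a => ?_⟩
  rw [← b.sum_repr a]
  simp only [map_sum, map_smul, ContinuousLinearMap.comp_apply, b.constrL_basis, hv]

theorem dom_flip (L : V → A'' →L[ℝ] Du F) (T : A' →L[ℝ] A'') (U : A →L[ℝ] A') :
    Dom k (fun z => (L z ∘L T ∘L U).flip) fun z => (L z ∘L T).flip :=
  Dom.of_le ‖U‖ (Eventually.of_forall fun z v => by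
    rw [mul_comm]
    exact ((L z ∘L T).flip v).opNorm_comp_le U)

/-- the jets of the members of a linear family -/
def jt (k : ℕ) (g : V → A →L[ℝ] A') (z : V) : A →L[ℝ] Jet k V A' :=
  ContinuousLinearMap.pi fun i =>
    (ContinuousMultilinearMap.flipLinear (iteratedFDeriv ℝ i g z) : A →L[ℝ] V [×(i : ℕ)]→L[ℝ] A')

theorem jt_apply {g : V → A →L[ℝ] A'} {z : V} (hg : ContDiffAt ℝ k g z) (a : A) :
    jt k g z a = jet k (fun q => g q a) z := by
  funext i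
  ext v
  exact (DFunLike.congr_fun ((ContinuousLinearMap.apply ℝ A' a).iteratedFDeriv_comp_left hg
    (CalcAux.cast_le i.is_le)) v).symm

theorem jt_lip {n : ℕ} {g : V → A →L[ℝ] A'} (hg : CkB (k + 1) n g) {q : V}
    (hq : q ∈ ball (0 : V) (rad n)) (a : A) : ‖jt k g q a - jt k g 0 a‖ ≤ n * ‖q‖ * ‖a‖ := by
  refine (pi_norm_le_iff_of_nonneg (by positivity)).2 fun i =>
    ContinuousMultilinearMap.opNorm_le_bound (by positivity) fun v => ?_
  refine ((iteratedFDeriv ℝ i g q - iteratedFDeriv ℝ i g 0) v).le_opNorm a |>.trans ?_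
  rw [mul_right_comm]
  exact mul_le_mul_of_nonneg_right (ContinuousMultilinearMap.le_of_opNorm_le
    (CalcAux.lip_iter hg hq i.is_le) v) (norm_nonneg _)

theorem jt_inj {n : ℕ} {g : V → A →L[ℝ] A'} (hg : CkB (k + 1) n g) {q : V}
    (hq : q ∈ ball (0 : V) (rad n)) {a : A} (h0 : ‖jt k g 0 a‖ = ‖a‖) (h : jt k g q a = 0) :
    a = 0 := by
  have h1 := jt_lip hg hq a
  rw [h, zero_sub, norm_neg, h0] at h1
  have h2 : (n : ℝ) * ‖q‖ < 1 := by
    have h3 : ‖q‖ < ((n : ℝ) + 1)⁻¹ := mem_ball_zero_iff.1 hq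
    rw [← one_div, lt_div_iff₀ (by positivity)] at h3
    nlinarith [norm_nonneg q]
  exact norm_le_zero_iff.1 (by nlinarith [norm_nonneg a])

/-- the reference equations -/
def Rf (k : ℕ) (H : Submodule ℝ (Jet k V (Du F))) (z : V) : F →L[ℝ] Jet k V (Du F) →L[ℝ] ℝ :=
  (polyL k V (Du F) z ∘L cproj H).flip

/-- a family whose jets fill `H` is equivalent to the reference equations -/
theorem eqv {g : V → A →L[ℝ] Du F} (hg : ContDiffAt ℝ k g 0) {H : Submodule ℝ (Jet k V (Du F))}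
    (h : (jt k g 0).range = H) : Eqv k (fun z => (g z).flip) (Rf k H) := by
  have h1 : Flat k (fun z => g z - polyL k V (Du F) z ∘L jt k g 0) 0 := flat_clm_iff.2 fun a => by
    have h2 := flat_taylor (hg.clm_apply (contDiffAt_const (c := a)))
    simp only [sub_zero, ← jt_apply hg, ← polyL_apply] at h2
    exact h2
  refine Eqv.trans (M' := fun z => (polyL k V (Du F) z ∘L jt k g 0).flip) (Eqv.of_flat
    (h1.of_le 1 (Eventually.of_forall fun z => ?_))) ⟨?_, ?_⟩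
  · rw [one_mul, ← ContinuousLinearMap.opNorm_flip (g z - _)]
    exact le_rfl
  · have h2 : cproj H ∘L jt k g 0 = jt k g 0 :=
      ContinuousLinearMap.ext fun a => cproj_of_mem (h ▸ ⟨a, rfl⟩)
    rw [← h2]
    exact dom_flip _ _ _
  · obtain ⟨σ, hσ⟩ := exists_rinv (T := jt k g 0) (p := cproj H) fun a =>
      (h ▸ cproj_mem H a : cproj H a ∈ (jt k g 0).range)
    have h2 := dom_flip (k := k) (polyL k V (Du F)) (jt k g 0) σ
    rwa [hσ] at h2

theorem range_eq {T : A →L[ℝ] A} {H H' : Submodule ℝ A} (h : T.range ≤ H')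
    (hi : ∀ a ∈ H, T a = 0 → a = 0) (hr : Module.finrank ℝ H' = Module.finrank ℝ H) :
    T.range = H' := by
  refine Submodule.eq_of_le_of_finrank_le h ?_
  rw [hr, ← LinearMap.finrank_range_of_inj (f := (T : A →ₗ[ℝ] A).domRestrict H)
    ((injective_iff_map_eq_zero _).2 fun a ha => Subtype.ext (hi a a.2 ha))]
  exact Submodule.finrank_mono fun _ ⟨a, ha⟩ => ⟨a, ha⟩

/-- linear isometries of normed spaces -/
abbrev Iso (W W' : Type) [NormedAddCommGroup W] [NormedSpace ℝ W] [NormedAddCommGroup W']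
    [NormedSpace ℝ W'] : Type := W ≃ₗᵢ[ℝ] W'

/-- flip, as an isometry -/
def fl (A F : Type) [NormedAddCommGroup A] [NormedSpace ℝ A] [NormedAddCommGroup F]
    [NormedSpace ℝ F] : Iso (A →L[ℝ] Du F) (F →L[ℝ] A →L[ℝ] ℝ) := ContinuousLinearMap.flipₗᵢ ℝ A F ℝ

theorem smooth_flip {L : V → A →L[ℝ] Du F} (hL : ContDiff ℝ ∞ L) (c : A →L[ℝ] A) :
    ContDiff ℝ ∞ fun z => (L z ∘L c).flip :=
  (fl A F).contDiff.comp (hL.clm_comp (contDiff_const (c := c)))

theorem meas_comp {X : Type} [MeasurableSpace X] {μ : Measure X} [FiniteDimensional ℝ A']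
    {L : V → A →L[ℝ] A'} (hL : ContDiff ℝ ∞ L) {c : X → A →L[ℝ] A} (hc : AEMeasurable c μ) :
    AEStronglyMeasurable (fun x => jet k (fun z => L z ∘L c x) 0) μ :=
  meas_jet_param (Φ := fun z => ContinuousLinearMap.compL ℝ A A A' (L z))
    (cda (contDiff_const.clm_apply hL).contDiffAt k) hc.aestronglyMeasurable

theorem meas_flip {X : Type} [MeasurableSpace X] {μ : Measure X} {L : V → A →L[ℝ] Du F}
    (hL : ContDiff ℝ ∞ L) {c : X → A →L[ℝ] A} (hc : AEMeasurable c μ) :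
    AEStronglyMeasurable (fun x => jet k (fun z => (L z ∘L c x).flip) 0) μ :=
  meas_jet_map (f := fun x z => L z ∘L c x) isOpen_univ (fl A F).contDiff.contDiffOn
    (meas_comp hL hc) (ae_of_all _ fun x =>
      ⟨cda (hL.clm_comp (contDiff_const (c := c x))).contDiffAt k, mem_univ _⟩)

theorem ckB_flip {n : ℕ} {g : V → A →L[ℝ] Du F} (h : CkB k n g) : CkB k n fun z => (g z).flip :=
  ⟨(fl A F).contDiff.comp_contDiffOn h.smooth, fun i hi q hq =>
    ((fl A F).norm_iteratedFDeriv_comp_left g q i).le.trans (h.bd i hi q hq)⟩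

theorem ckB_of_pb {W : Type} [NormedAddCommGroup W] [NormedSpace ℝ W] {f : V → W} {n n' : ℕ}
    {K : ℝ} (h : ∀ z ∈ ball (0 : V) (rad n), Pb k f z K) (hn : n ≤ n') (hK : K ≤ n') :
    CkB k n' f :=
  ⟨fun z hz => (cda (h z (ball_subset_ball (rad_anti hn) hz)).sm k).contDiffWithinAt,
    fun i hi z hz => ((h z (ball_subset_ball (rad_anti hn) hz)).bd i hi).trans hK⟩

theorem exists_fam {l : V → A' →L[ℝ] A''} {σ : A →L[ℝ] A'} {n N : ℕ} {K : ℝ}
    (h : ∀ z ∈ ball (0 : V) (rad n), Pb k l z n) (hσ : ‖σ‖ ≤ K) (hN : 2 ^ k * (n * K) ≤ N) :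
    ∃ g : V → A →L[ℝ] A'', CkB k (max n N) g ∧
      (∀ z ∈ ball (0 : V) (rad n), ContDiffAt ℝ ∞ g z) ∧ ∀ z a, g z a = l z (σ a) :=
  ⟨fun z => l z ∘L σ, ckB_of_pb (fun z hz => (h z hz).compL (pb_const σ hσ)) (le_max_left _ _)
    (hN.trans (Nat.cast_le.2 (le_max_right _ _))),
    fun z hz => (h z hz).sm.clm_comp contDiffAt_const, fun _ _ => rfl⟩

theorem Rf_zero {H : Submodule ℝ (Jet k V (Du F))} {v : F} :
    Rf k H 0 v = 0 ↔ ∀ j ∈ H, poly j 0 v = 0 :=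
  ⟨fun h j hj => by
    have h1 : poly (cproj H j) 0 v = 0 := by
      rw [← polyL_apply]
      exact DFunLike.congr_fun h j
    rwa [cproj_of_mem hj] at h1,
  fun h => ContinuousLinearMap.ext fun j => by
    have h1 := h _ (cproj_mem H j)
    rw [← polyL_apply] at h1
    exact h1⟩

end Lin

end Hullx

variable {Γ X B E V : Type} [Group Γ] [Countable Γ] [MetricSpace X] [ProperSpace X]
  [MulAction Γ X] [IsIsometricSMul Γ X] [MeasurableSpace X] [BorelSpace X]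
  [TopologicalSpace B] [CompactSpace B] [T2Space B] [SecondCountableTopology B] [MulAction Γ B]
  [ContinuousConstSMul Γ B] [MeasurableSpace B] [BorelSpace B]
  [NormedAddCommGroup E] [InnerProductSpace ℝ E] [FiniteDimensional ℝ E]
  [NormedAddCommGroup V] [NormedSpace ℝ V] [FiniteDimensional ℝ V]
  {F : Type} [NormedAddCommGroup F] [NormedSpace ℝ F] [FiniteDimensional ℝ F]
  {S : Sys Γ X B E V} {𝔉 : Bun S F} {Y : Type} [MeasurableSpace Y] [MulAction Γ Y]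

namespace Hullx

variable {k c n : ℕ} {x y : X}

/-- a section which is small near the stable axis is small at the points of the axis -/
theorem sm_pull (s : CSec 𝔉) {f : V → Du F} {r C : ℝ} (h0 : (0 : V) ∈ S.dom y x)
    (he : S.ep y = S.ep x) (hr : S.τ y x 0 ∈ ball (0 : V) r) (hf : ContDiffAt ℝ ∞ f (S.τ y x 0))
    (hC : ∀ z ∈ ball (0 : V) r, |f z (s.e x z)| ≤ C * ‖S.pU z‖ ^ c) :
    s.Sm c y (𝔉.pull y x f) := by
  refine ⟨𝔉.contDiffAt_pull h0 hf, ?_⟩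
  have h1 : (fun z => S.pU (S.τ y x z)) =O[𝓝 0] fun z : V => z := by
    have h2 := (S.pU.differentiableAt.comp 0 (Sys.differentiableAt_τ h0)).isBigO_sub
    simpa only [Function.comp, (Sys.pU_τ he h0).2 (map_zero _), sub_zero] using h2
  refine IsBigO.trans (IsBigO.of_bound |C| ?_) (h1.norm_norm.pow c)
  filter_upwards [Sys.dom_nhds h0, Sys.continuousAt_τ h0 (isOpen_ball.mem_nhds hr)] with z h2 h3
  have h4 := hC _ h3
  rw [s.eqv y x z h2] at h4
  exact h4.trans (mul_le_mul (le_abs_self _) (le_abs_self _) (by positivity) (abs_nonneg _))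

theorem jet_pull {f : V → Du F} (h0 : (0 : V) ∈ S.dom y x) (hf : ContDiffAt ℝ ∞ f (S.τ y x 0))
    (h : jet k (𝔉.pull y x f) 0 = 0) : jet k f (S.τ y x 0) = 0 := by
  have h1 := Sys.τ_dom h0
  have h2 := DFunLike.congr_fun (𝔉.JT_coc k h1 (Sys.dom_self h1.1)) (jet k f (S.τ y x 0))
  rw [ContinuousLinearMap.mul_apply, Sys.τ_τ h0, 𝔉.JT_jet k h0 hf, h, map_zero,
    𝔉.JT_self k h1.1, jet_poly_jet (cda hf k)] at h2
  exact h2.symm

/-- the equivalence at a point of the stable axis -/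
theorem eqv_pull (s : CSec 𝔉) {g : V → Jet k V (Du F) →L[ℝ] Du F} (hg : CkB (k + 1) n g)
    (hs : ∀ z ∈ ball (0 : V) (rad n), ContDiffAt ℝ ∞ g z)
    (hj : ∀ j ∈ s.MJ k c x, jet k (fun z => g z j) 0 = j)
    (hC : ∀ j, ∃ C : ℝ, ∀ z ∈ ball (0 : V) (rad n), |g z j (s.e x z)| ≤ C * ‖S.pU z‖ ^ c)
    (he : S.ep y = S.ep x) (hy : S.pt y ∈ S.c x '' ball 0 (rad n))
    (hr : Module.finrank ℝ (s.MJ k c y) = Module.finrank ℝ (s.MJ k c x)) :
    Eqv k (𝔉.pull y x fun z => (g z).flip) (Rf k (s.MJ k c y)) := by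
  obtain ⟨h0, h1⟩ := Sys.zero_dom_image (rad_le_one n) hy
  have h2 : ∀ j, ContDiffAt ℝ ∞ (fun z => g z j) (S.τ y x 0) := fun j =>
    (hs _ h1).clm_apply contDiffAt_const
  have h3 : ContDiffAt ℝ k (fun z => (ContinuousLinearMap.compL ℝ F F ℝ).flip (𝔉.A y x z) ∘L
      g (S.τ y x z)) 0 :=
    cda ((contDiffAt_const.clm_apply (𝔉.contDiffAt h0)).clm_comp
      (ContDiffAt.comp (g := g) 0 (hs _ h1) (Sys.contDiffAt_τ h0))) k
  refine eqv h3 (range_eq ?_ (fun j hj' h => ?_) hr)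
  · rintro _ ⟨j, rfl⟩
    obtain ⟨C, hC⟩ := hC j
    exact s.mem_MJ.2 ⟨_, sm_pull s h0 he h1 (h2 j) hC, (jt_apply h3 j).symm⟩
  · refine jt_inj hg h1 ?_ ?_
    · rw [jt_apply (cda (hs 0 (mem_ball_self (rad_pos n))) k), hj j hj']
    · rw [jt_apply (cda (hs _ h1) k)]
      exact jet_pull h0 (h2 j) ((jt_apply h3 j).symm.trans h)

/-- the extension along the stable axis -/
theorem extS (s : CSec 𝔉) (P : Prob S Y) (k c : ℕ)
    (hc : ∀ c', c ≤ c' → ∀ᵐ x ∂S.μ, s.MJ k c' x = s.MJ k c x) : S.Tight fun n x =>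
      ∃ M : V → F →L[ℝ] Jet k V (Du F) →L[ℝ] ℝ, CkB k n M ∧ M 0 = Rf k (s.MJ k c x) 0 ∧
        𝔉.ExtS k n (fun y => Rf k (s.MJ k c y)) x M := by
  haveI := JetMx.fd_jet k V (Du F)
  obtain ⟨D, hD, c₁, h1⟩ := s.axis P k c
  haveI := JetMx.fd_jet D V (Du F)
  obtain ⟨d, hd⟩ := s.rank_MJ P k c
  obtain ⟨C, hC, h2⟩ := exists_lift (A'' := Jet k V (Du F)) (Jet k V (Du F)) (Jet D V (Du F))
  obtain ⟨C', hC', h3⟩ := norm_cproj (F := Jet k V (Du F))
  refine (h1 (max c₁ c) (le_max_left _ _)).imp₂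
    (Sys.tight_lift (M := fun _ => trunc hD) (s.msub_MJ D (max c₁ c)) aemeasurable_const)
    fun n n' => ?_
  obtain ⟨N, hN⟩ := exists_nat_ge (2 ^ (k + 1) * (n * (C * (n' * C'))) : ℝ)
  refine ⟨max n N, ?_⟩
  filter_upwards [hc _ (le_max_right c₁ c), hd, Sys.ae_pt hd, Sys.ae_alongS hd]
    with x e d0 d1 d2 ⟨l, l1, l2⟩ h4
  obtain ⟨σ, s1, s2, s3⟩ := h2 (s.MJ D (max c₁ c) x) (trunc hD) (cproj (s.MJ k c x)) (n' * C')
    (by positivity) fun j => by
      have h5 := cproj_mem (s.MJ k c x) j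
      have h5' : cproj (s.MJ k c x) j ∈ s.MJ k (max c₁ c) x := e.ge h5
      obtain ⟨v, hv, h6⟩ := (s.MJ_trunc hD).ge h5'
      obtain ⟨v', h7, h8, h9⟩ := h4 v hv
      refine ⟨v', h7, h8.trans h6, h9.trans ?_⟩
      rw [mul_assoc, show trunc hD v = _ from h6]
      exact mul_le_mul_of_nonneg_left (ContinuousLinearMap.le_of_opNorm_le _ (h3 _) j)
        (Nat.cast_nonneg _)
  have hb : ball (0 : V) (rad (max n N)) ⊆ ball 0 (rad n) :=
    ball_subset_ball (rad_anti (le_max_left _ _))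
  obtain ⟨g, g2, g1, g0⟩ := exists_fam l1 s3 hN
  have g3 : ∀ j, jet k (fun z => g z j) 0 = cproj (s.MJ k c x) j := fun j => by
    simp only [g0]
    exact (l2 _ (s1 j)).1.trans (s2 j)
  have g4 : ∀ y, S.ep y = S.ep x → S.pt y ∈ S.c x '' ball 0 (rad (max n N)) →
      Module.finrank ℝ (s.MJ k c y) = d →
      Eqv k (𝔉.pull y x fun z => (g z).flip) (Rf k (s.MJ k c y)) := fun y y1 y2 y3 =>
    eqv_pull s g2 (fun z hz => g1 z (hb hz)) (fun j hj => (g3 j).trans (cproj_of_mem hj))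
      (fun j => (l2 _ (s1 j)).2.imp fun _ h z hz => by rw [g0]; exact h z (hb hz)) y1 y2
      (y3.trans d0.symm)
  refine ⟨_, ckB_flip (g2.mono (Nat.le_succ k) le_rfl), ?_, fun y hy => g4 y (congrArg Prod.snd hy)
    ⟨0, mem_ball_self (rad_pos _), (S.c_zero' x).trans hy.symm⟩ (d1 y hy),
    (d2 _).mono le_rfl g4⟩
  refine ContinuousLinearMap.ext fun v => ContinuousLinearMap.ext fun j => ?_
  have h5 := poly_jet_zero (k := k) (fun z => g z j) 0
  rw [g3, ← polyL_apply] at h5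
  exact (DFunLike.congr_fun h5 v).symm

theorem ker_Rf (s : CSec 𝔉) {v : F} :
    v ∈ (Rf k (s.MJ k c x) 0).ker ↔ ∀ l, s.Sm c x l → l 0 v = 0 :=
  Rf_zero.trans ⟨fun h l hl => by
    have h1 := h _ (s.mem_MJ.2 ⟨l, hl, rfl⟩)
    rwa [poly_jet_zero] at h1,
  fun h j hj => by
    obtain ⟨l, hl, rfl⟩ := s.mem_MJ.1 hj
    rw [poly_jet_zero]
    exact h l hl⟩

theorem meas_Rf (s : CSec 𝔉) (k c : ℕ) :
    AEStronglyMeasurable (fun x => jet k (Rf k (s.MJ k c x)) 0) S.μ :=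
  haveI := JetMx.fd_jet k V (Du F)
  meas_flip contDiff_polyL (meas_cproj (s.msub_MJ k c))

/-- adding the gap estimate -/
theorem gap {G : Type} [NormedAddCommGroup G] [NormedSpace ℝ G] [FiniteDimensional ℝ G]
    {R : X → F →L[ℝ] G} (hR : AEStronglyMeasurable R S.μ) {H : X → Submodule ℝ F}
    (hH : ∀ᵐ x ∂S.μ, (R x).ker = H x) {Ex : ℕ → X → (V → F →L[ℝ] G) → Prop}
    (hm : ∀ n n' x M, n ≤ n' → Ex n x M → Ex n' x M)
    (h : S.Tight fun n x => ∃ M, CkB k n M ∧ M 0 = R x ∧ Ex n x M) :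
    S.Tight fun n x => ∃ M : V → F →L[ℝ] G, CkB k n M ∧ (M 0).ker = H x ∧
      (∀ v, infDist v (H x) ≤ n * ‖M 0 v‖) ∧ Ex n x M := by
  refine h.imp₂ (Sys.tight_gap (MET.msub_const ⊤) hR.aemeasurable) fun n n' => ⟨max n n', ?_⟩
  filter_upwards [hH] with x e ⟨M, h1, h2, h3⟩ h4
  refine ⟨M, h1.mono le_rfl (le_max_left _ _), h2 ▸ e, fun v => ?_,
    hm _ _ _ _ (le_max_left _ _) h3⟩
  have h5 := h4 v Submodule.mem_top
  rw [top_inf_eq, e, ← h2] at h5
  exact h5.trans (mul_le_mul_of_nonneg_right (Nat.cast_le.2 (le_max_right _ _)) (norm_nonneg _))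

theorem extU (s : CSec 𝔉) (P : Prob S Y) (k c : ℕ)
    (hc : ∀ c', c ≤ c' → ∀ᵐ x ∂S.μ, s.MJ k c' x = s.MJ k c x) : S.Tight fun n x =>
      ∃ M : V → F →L[ℝ] Jet k V (Du F) →L[ℝ] ℝ, CkB k n M ∧ M 0 = Rf k (s.MJ k c x) 0 ∧
        𝔉.ExtU k n (fun y => Rf k (s.MJ k c y)) x M := by
  have h5 : ∀ c, s.rev.MJ k c = s.MJ k c := fun c => funext fun _ => s.MJ_rev
  have h6 := extS s.rev P.rev k c fun c' h => by
    rw [Sys.rev_μ, h5, h5]
    exact hc c' h
  rw [Sys.rev_tight, h5] at h6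
  exact h6.mono (ae_of_all _ fun x n ⟨M, h1, h2, h3⟩ => ⟨M, h1, h2, 𝔉.rev_extS.1 h3⟩)

theorem ker_eq (s : CSec 𝔉) {c' : ℕ} (h : s.MJ 0 c' x = s.MJ 0 c x) :
    (Rf k (s.MJ k c' x) 0).ker = (Rf 0 (s.MJ 0 c x) 0).ker := by
  rw [← h]
  exact Submodule.ext fun v => (ker_Rf s).trans (ker_Rf s).symm

theorem meas_R0 (s : CSec 𝔉) (k c : ℕ) :
    AEStronglyMeasurable (fun x => Rf k (s.MJ k c x) 0) S.μ :=
  haveI := JetMx.fd_jet k V (Du F)
  meas_jet_val (meas_Rf s k c)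

theorem msub (s : CSec 𝔉) (k c : ℕ) : MET.MSub S.μ fun x => (Rf k (s.MJ k c x) 0).ker :=
  haveI := JetMx.fd_jet k V (Du F)
  MET.msub_ker (meas_R0 s k c).aemeasurable

theorem reg (H : Submodule ℝ (Jet k V (Du F))) : ContDiffAt ℝ k (Rf k H) 0 :=
  haveI := JetMx.fd_jet k V (Du F)
  cda (smooth_flip contDiff_polyL _).contDiffAt k

end Hullx

open Hullx in
theorem CSec.hull (s : CSec 𝔉) (P : Prob S Y) :
    ∃ (c : ℕ) (W : SEq 𝔉 fun k => Jet k V (Du F) →L[ℝ] ℝ), 1 ≤ c ∧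
      ∀ x v, v ∈ W.H x ↔ ∀ l, s.Sm c x l → l 0 v = 0 := by
  obtain ⟨cK, hm, h1, h2⟩ := s.stab P
  have h3 := fun k => (h2 0 (cK k) (hm (Nat.zero_le k))).mono fun x hx => ker_eq (k := k) s hx
  have h4 : ∀ k, FiniteDimensional ℝ (Jet k V (Du F)) := fun k => JetMx.fd_jet k V (Du F)
  have h6 := fun k => gap (meas_R0 s k (cK k)) (h3 k)
    (Ex := fun n x M => 𝔉.ExtU k n (fun y => Rf k (s.MJ k (cK k) y)) x M)
    (fun _ _ _ _ h e => Bun.ExtU.mono 𝔉 e le_rfl h) (extU s P k _ (h2 k))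
  have h7 := fun k => gap (meas_R0 s k (cK k)) (h3 k)
    (Ex := fun n x M => 𝔉.ExtS k n (fun y => Rf k (s.MJ k (cK k) y)) x M)
    (fun _ _ _ _ h e => Bun.ExtS.mono 𝔉 e le_rfl h) (extS s P k _ (h2 k))
  exact ⟨cK 0,
    { H := fun x => (Rf 0 (s.MJ 0 (cK 0) x) 0).ker
      R := fun k x => Rf k (s.MJ k (cK k) x)
      H_smul := fun g x => by rw [s.MJ_smul]
      R_smul := fun k g x => by rw [s.MJ_smul]
      meas := msub s 0 _
      measR := fun k => meas_Rf s k _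
      reg := fun k => ae_of_all _ fun x => reg _
      extU := h6
      extS := h7 }, h1 0, fun x v => ker_Rf s⟩

end Vale.Agent.P207Z
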