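import Vale.Agent.P207Z.Char.JT.B
import Vale.Agent.P207Z.Lift.Main

/-!
# P207: transport of jets, time steps (block CH-J)
-/

set_option linter.all false

open Set Filter Topology Metric MeasureTheory Asymptotics
open scoped ContDiff

noncomputable section

namespace Vale.Agent.P207Z

open Vale.Agent.P207.N3 (JC)
open Lift

variable {Γ X B E V : Type} [Group Γ] [Countable Γ] [MetricSpace X] [ProperSpace X]
  [MulAction Γ X] [IsIsometricSMul Γ X] [MeasurableSpace X] [BorelSpace X]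
  [TopologicalSpace B] [CompactSpace B] [T2Space B] [SecondCountableTopology B] [MulAction Γ B]
  [ContinuousConstSMul Γ B] [MeasurableSpace B] [BorelSpace B]
  [NormedAddCommGroup E] [InnerProductSpace ℝ E] [FiniteDimensional ℝ E]
  [NormedAddCommGroup V] [NormedSpace ℝ V] [FiniteDimensional ℝ V]
  {F : Type} [NormedAddCommGroup F] [NormedSpace ℝ F] [FiniteDimensional ℝ F]
  {S : Sys Γ X B E V} {𝔉 : Bun S F} {Y : Type} [MeasurableSpace Y] [MulAction Γ Y]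

theorem JTx.pS_le (S : Sys Γ X B E V) : ‖S.pS‖ ≤ 1 :=
  ContinuousLinearMap.opNorm_le_bound _ zero_le_one fun v => by simpa using S.norm_pS_le v

theorem JTx.sm_axis {x y : X} {w : E} (h : S.iS w ∈ S.dom x y) :
    ContDiffAt ℝ ∞ (fun w => S.τ x y (S.iS w)) w :=
  (Sys.contDiffAt_τ h).comp w S.iS.contDiff.contDiffAt

open JTx

theorem Sys.exists_step (S : Sys Γ X B E V) {r : ℝ} (hr : 0 < r) : ∃ St : S.Step, St.ρ ≤ r := by
  obtain ⟨r₀, C₀, hr₀, hC₀, h₀⟩ := S.stayS (a := 1 / 4) (by norm_num)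
  obtain ⟨C₁, h₁⟩ := S.contrS 1 le_rfl
  obtain ⟨T₀, -, hT⟩ := S.exists_exp_lt C₁ (ε := 1 / 2) (by norm_num)
  have e1 : ball (0 : E) (min (min r (1 / 4)) (min r₀ S.ρ)) ⊆ ball 0 r₀ :=
    ball_subset_ball ((min_le_right _ _).trans (min_le_left _ _))
  have e2 : ball (0 : E) (min (min r (1 / 4)) (min r₀ S.ρ)) ⊆ ball 0 S.ρ :=
    ball_subset_ball ((min_le_right _ _).trans (min_le_right _ _))
  refine ⟨⟨max 1 T₀, min (min r (1 / 4)) (min r₀ S.ρ), max 1 C₀, le_max_left _ _,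
    lt_min (lt_min hr (by norm_num)) (lt_min hr₀ S.ρ_pos),
    (min_le_left _ _).trans (min_le_right _ _), le_max_left _ _, fun x t ht w hw => ?_,
    fun x w hw => ?_⟩, (min_le_left _ _).trans (min_le_left _ _)⟩
  · refine ⟨(h₀ x t ht w (e1 hw)).1, (h₀ x t ht w (e1 hw)).2.trans ?_⟩
    gcongr
    exact le_max_right _ _
  · have ht : (0 : ℝ) ≤ max 1 T₀ := zero_le_one.trans (le_max_left _ _)
    have hd := (sm_axis (S := S) (S.domS x _ ht w (e2 hw))).differentiableAt (by simp)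
    have h2 := (h₁ x _ ht w (e2 hw)).trans (hT _ (le_max_right 1 T₀)).le
    rw [norm_iteratedFDeriv_one] at h2
    exact (congrArg norm (S.pS.hasFDerivAt.comp w hd.hasFDerivAt).fderiv).trans_le
      ((ContinuousLinearMap.opNorm_comp_le _ _).trans
        ((mul_le_of_le_one_left (norm_nonneg _) (pS_le S)).trans h2))

namespace Sys.Step

variable (St : S.Step) {x : X} {k n : ℕ} {w : E}

theorem o_zero : St.o x 0 = x := by simp [o, S.φ_zero]
theorem o_add : St.o x (k + n) = S.φ (n * St.T) (St.o x k) := by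
  rw [o, o, ← S.φ_add]
  congr 1
  push_cast
  ring
theorem pt_o : S.pt (St.o x k) = S.pt x := S.pt_φ _ _

theorem stay_o (hw : w ∈ ball (0 : E) St.ρ) :
    S.iS w ∈ S.dom (St.o x k) (St.o x (k + n)) ∧
      ‖S.τ (St.o x k) (St.o x (k + n)) (S.iS w)‖ ≤ 1 / 4 := by
  rw [o_add]
  exact (St.stay _ _ (mul_nonneg (Nat.cast_nonneg n) (zero_le_one.trans St.T_pos)) w hw).1 _
    right_mem_uIcc

theorem dom (hw : w ∈ ball (0 : E) St.ρ) : S.iS w ∈ S.dom (St.o x k) (St.o x (k + n)) :=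
  (St.stay_o hw).1
theorem iS_pS (hw : w ∈ ball (0 : E) St.ρ) : S.iS (S.pS (S.τ (St.o x k) (St.o x (k + n)) (S.iS w)))
    = S.τ (St.o x k) (St.o x (k + n)) (S.iS w) :=
  S.iS_pS ((Sys.pU_τ (congrArg Prod.snd (St.pt_o.trans St.pt_o.symm)) (St.dom hw)).2 (S.pU_iS w))

theorem θ_zero : St.θ x k 0 = 0 := by
  rw [θ, map_zero, Sys.τ_zero (St.pt_o.trans St.pt_o.symm), map_zero]

theorem θ_sm (hw : w ∈ ball (0 : E) St.ρ) : ContDiffAt ℝ ∞ (St.θ x k) w :=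
  S.pS.contDiff.contDiffAt.comp w (sm_axis (St.dom hw))

theorem θ_der (hw : w ∈ ball (0 : E) St.ρ) : ‖fderiv ℝ (St.θ x k) w‖ ≤ 1 / 2 := by
  have h := St.contr (St.o x k) w hw
  have e : St.o x (k + 1) = S.φ St.T (St.o x k) := by rw [o_add, Nat.cast_one, one_mul]
  rwa [← e] at h

theorem θ_mem (hw : w ∈ ball (0 : E) St.ρ) : St.θ x k w ∈ ball (0 : E) St.ρ := by
  have h := (convex_ball (0 : E) St.ρ).norm_image_sub_le_of_norm_fderiv_le (𝕜 := ℝ)
    (f := St.θ x k) (fun u hu => (St.θ_sm hu).differentiableAt (by simp))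
    (fun u hu => St.θ_der hu) (mem_ball_self St.ρ_pos) hw
  rw [θ_zero, sub_zero, sub_zero] at h
  rw [mem_ball_zero_iff] at hw ⊢
  linarith [norm_nonneg w]

theorem maps (hw : w ∈ ball (0 : E) St.ρ) :
    S.pS (S.τ (St.o x k) (St.o x (k + n)) (S.iS w)) ∈ ball (0 : E) St.ρ := by
  induction n with
  | zero => rwa [add_zero, Sys.τ_self (Sys.dom_ball (St.dom (x := x) (k := k) (n := 0) hw)),
      S.pS_iS]
  | succ n ih =>
    have h := St.θ_mem (x := x) (k := k + n) ih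
    rwa [θ, St.iS_pS hw, add_assoc, Sys.τ_trans (St.dom hw) (St.dom hw)] at h

theorem dist_o : ∃ D, ∀ x k, dist (St.o x k) (St.o x (k + 1)) ≤ D := by
  obtain ⟨D, -, hD⟩ := S.dist_le_lv
  refine ⟨D * (|St.T| + 1), fun x k => (hD _ _ (St.pt_o.trans St.pt_o.symm)).trans_eq ?_⟩
  rw [o_add, S.lv_φ]
  simp

theorem bd_axis {W : Type} [NormedAddCommGroup W] [NormedSpace ℝ W] {f : X × X → V → W}
    (hf : JC f S.Dm) (hs : ∀ (g : Γ) x y, ∀ q ∈ S.dom x y, f (g • x, g • y) q = f (x, y) q)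
    (j : ℕ) : ∃ c, 0 ≤ c ∧ ∀ x k, Bd St.ρ j (fun w => f (St.o x k, St.o x (k + 1)) (S.iS w)) c := by
  obtain ⟨D, hD⟩ := St.dist_o
  obtain ⟨C, hC, h⟩ := S.unif_bd hf hs D (a := 1 / 4) (by norm_num) j
  refine ⟨j.factorial * C * max 1 ‖S.iS‖ ^ j, by positivity, fun x k w hw => Pb.comp_clm S.iS
    ⟨hf.contDiffAt (p := ((_, _), S.iS w)) (St.dom hw),
      h _ _ (hD x k) _ (St.dom hw) ?_ (St.stay_o hw).2⟩⟩
  rw [S.norm_iS]
  exact (mem_ball_zero_iff.1 hw).le.trans St.ρ_le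

variable {F' : Type} [NormedAddCommGroup F'] [NormedSpace ℝ F'] {f : X × X → V → F' →L[ℝ] F'}

theorem dat (hf : JC f S.Dm) (hs : ∀ (g : Γ) x y, ∀ q ∈ S.dom x y, f (g • x, g • y) q = f (x, y) q) :
    ∃ (M : ℝ) (c : ℕ → ℝ), 1 ≤ M ∧ ∀ x, Dat St.ρ (1 / 2) M c (St.θ x)
      fun k w => f (St.o x k, St.o x (k + 1)) (S.iS w) := by
  choose c hc0 hc using St.bd_axis hf hs
  choose d hd0 hd using St.bd_axis Sys.jc_τ fun g _ _ _ hq => Sys.τ_smul g hq
  refine ⟨max 1 (c 0), fun j => c j + d (j + 1), le_max_left _ _, fun x =>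
    ⟨fun _ => St.θ_zero, fun _ _ => St.θ_sm, fun _ _ => St.θ_der, fun k j w hw => ?_,
      fun k w hw => (hc 0 x k w hw).norm_le.trans (le_max_right _ _),
      fun k j w hw => (hc j x k w hw).le (le_add_of_nonneg_right (hd0 _))⟩⟩
  exact ((hd (j + 1) x k w hw).clm' S.pS (pS_le S)).fderiv.le (le_add_of_nonneg_left (hc0 _))
theorem it_eq (hc : ∀ x y z, ∀ q ∈ S.dom x y, q ∈ S.dom x z →
      f (x, y) q * f (y, z) (S.τ x y q) = f (x, z) q) (s : E → F') (hw : w ∈ ball (0 : E) St.ρ) :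
    It (St.θ x) (fun k w => f (St.o x k, St.o x (k + 1)) (S.iS w)) k (n + 1) s w
      = f (St.o x k, St.o x (k + (n + 1))) (S.iS w)
        (s (S.pS (S.τ (St.o x k) (St.o x (k + (n + 1))) (S.iS w)))) := by
  induction n generalizing k w with
  | zero => rfl
  | succ n ih =>
    have h1 := St.dom (x := x) (k := k) (n := 1) hw
    have h2 := St.dom (x := x) (k := k) (n := n + 1 + 1) hw
    rw [It, Tr, ih (St.θ_mem hw), θ, St.iS_pS hw, show k + 1 + (n + 1) = k + (n + 1 + 1) by ring,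
      Sys.τ_trans h1 h2, ← hc _ _ _ _ h1 h2]
    rfl
/-- returns at the multiples of the step -/
theorem window (P : Prob S Y) {T : ℕ → X → Prop} (h : S.Tight T) (hp : S.Port T) :
    ∀ᵐ x ∂S.μ, ∃ n, ∀ᶠ m : ℕ in atTop, ∃ k, m ≤ k ∧ k ≤ 2 * m ∧ T n (St.o x k) := by
  obtain ⟨D, hD0, hD⟩ := S.dist_le_lv
  have hT : 0 < St.T := one_pos.trans_le St.T_pos
  filter_upwards [P.window h hp] with x hx
  obtain ⟨n, hn⟩ := hx (1 / 2) (by norm_num)
  obtain ⟨n', hn'⟩ := hp.move (D * (St.T + 1)) n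
  refine ⟨n', ?_⟩
  filter_upwards [(tendsto_natCast_atTop_atTop.atTop_mul_const hT).eventually hn,
    eventually_ge_atTop 2] with m hm h2
  obtain ⟨j, hj1, hj2, hj⟩ := hm.1
  have h3 : (j : ℝ) / St.T ≤ ⌈(j : ℝ) / St.T⌉₊ := Nat.le_ceil _
  have h4 : (⌈(j : ℝ) / St.T⌉₊ : ℝ) < j / St.T + 1 := Nat.ceil_lt_add_one (by positivity)
  have h5 : (m : ℝ) ≤ j / St.T := (le_div_iff₀ hT).2 hj1
  have h6 : (j : ℝ) / St.T ≤ 3 / 2 * m := (div_le_iff₀ hT).2 (by linarith)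
  have h7 : (2 : ℝ) ≤ m := by exact_mod_cast h2
  have hpt : S.pt (S.φ j x) = S.pt (St.o x ⌈(j : ℝ) / St.T⌉₊) := (S.pt_φ _ _).trans St.pt_o.symm
  refine ⟨⌈(j : ℝ) / St.T⌉₊, by exact_mod_cast h5.trans h3, ?_, hn' _ _ hpt ?_ hj⟩
  · have : (⌈(j : ℝ) / St.T⌉₊ : ℝ) ≤ 2 * m := by linarith
    exact_mod_cast this
  · refine (hD _ _ hpt).trans (mul_le_mul_of_nonneg_left (add_le_add_left ?_ 1) hD0.le)
    rw [o, S.lv_φ, S.lv_φ, abs_le]
    have h8 := (div_le_iff₀ hT).1 h3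
    have h9 := mul_lt_mul_of_pos_right h4 hT
    rw [add_mul, div_mul_cancel₀ _ hT.ne'] at h9
    constructor <;> linarith

end Sys.Step

/-- the sum of the Oseledets projections of exponent at most `a` -/
def Coc0.slow (C : Coc0 S F) (Λ : Finset ℝ) (a : ℝ) (x : X) : F →L[ℝ] F :=
  ∑ l ∈ Λ.filter (· ≤ a), MET.prj S.φ C.fl x l

theorem JTx.sum_le {C : Coc0 S F} {ε : ℝ} {n : ℕ} {x : X} (h : C.Pes ε n x) {Λ Λ' : Finset ℝ}
    (hΛ : Λ' ⊆ Λ) {a s t : ℝ} (ha : ∀ l ∈ Λ', (t - s) * l ≤ (t - s) * a) :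
    ‖C.fl t x * (∑ l ∈ Λ', MET.prj S.φ C.fl x l) * C.fl (-s) (S.φ s x)‖
      ≤ (Λ.card * n : ℕ) * Real.exp ((t - s) * a + ε * (|s| + |t|)) := by
  rw [Finset.mul_sum, Finset.sum_mul]
  refine (norm_sum_le_of_le _ (n := fun _ => n * Real.exp ((t - s) * a + ε * (|s| + |t|)))
    fun l hl => (h.2 l s t).trans ?_).trans ?_
  · exact mul_le_mul_of_nonneg_left (Real.exp_le_exp.2 (add_le_add_left (ha l hl) _))
      (Nat.cast_nonneg n)
  · rw [Finset.sum_const, nsmul_eq_mul, Nat.cast_mul, mul_assoc]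
    gcongr

/-- slow and fast parts, with a tight constant -/
theorem Coc0.split (C : Coc0 S F) (P : Prob S Y) (a : ℝ) {ε : ℝ} (hε : 0 < ε) :
    ∃ Λ : Finset ℝ, (∀ᵐ x ∂S.μ, ∀ l, l ∉ Λ → MET.prj S.φ C.fl x l = 0) ∧
      S.Tight fun n x => ∀ s t : ℝ,
        (s ≤ t → ‖C.fl t x * C.slow Λ a x * C.fl (-s) (S.φ s x)‖
          ≤ n * Real.exp ((t - s) * a + ε * (|s| + |t|))) ∧
        (t ≤ s → ‖C.fl t x * (C.fl 0 x - C.slow Λ a x) * C.fl (-s) (S.φ s x)‖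
          ≤ n * Real.exp ((t - s) * a + ε * (|s| + |t|))) := by
  obtain ⟨Λ, hΛ⟩ := C.spec P
  refine ⟨Λ, hΛ, (C.tight_pes P hε).imp fun n => ⟨Λ.card * n, ?_⟩⟩
  filter_upwards [hΛ] with x hx h s t
  refine ⟨fun hst => sum_le h (Finset.filter_subset _ _) fun l hl =>
    mul_le_mul_of_nonneg_left (Finset.mem_filter.1 hl).2 (sub_nonneg.2 hst), fun hts => ?_⟩
  have e : C.fl 0 x - C.slow Λ a x = ∑ l ∈ Λ.filter fun l => ¬ l ≤ a, MET.prj S.φ C.fl x l := by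
    rw [← h.1.osel.sum_eq (S := Λ) fun l hl => by_contra fun h' => hl (hx l h'), Coc0.slow,
      ← Finset.sum_filter_add_sum_filter_not Λ (· ≤ a), add_sub_cancel_left]
  rw [e]
  exact sum_le h (Finset.filter_subset _ _) fun l hl =>
    mul_le_mul_of_nonpos_left (not_le.1 (Finset.mem_filter.1 hl).2).le (sub_nonpos.2 hts)

end Vale.Agent.P207Z
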