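import Vale.Agent.P207Z.Char.JT
import Vale.Agent.P207Z.Char.MJ.A

/-!
# P207: the modules of jets which kill a section (block CH-A)
-/

set_option linter.all false

open Set Filter Topology Metric MeasureTheory Asymptotics
open scoped ContDiff

noncomputable section

namespace Vale.Agent.P207Z

open Vale.Agent.P207.N3 (JC)
open Lift

variable {Γ X B E V : Type} [Group Γ] [Countable Γ] [MetricSpace X] [ProperSpace X]
  [MulAction Γ X] [IsIsometricSMul Γ X] [MeasurableSpace X] [BorelSpace X]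
  [TopologicalSpace B] [CompactSpace B] [T2Space B] [SecondCountableTopology B] [MulAction Γ B]
  [ContinuousConstSMul Γ B] [MeasurableSpace B] [BorelSpace B]
  [NormedAddCommGroup E] [InnerProductSpace ℝ E] [FiniteDimensional ℝ E]
  [NormedAddCommGroup V] [NormedSpace ℝ V] [FiniteDimensional ℝ V]
  {F : Type} [NormedAddCommGroup F] [NormedSpace ℝ F] [FiniteDimensional ℝ F]
  {S : Sys Γ X B E V} {𝔉 : Bun S F} {Y : Type} [MeasurableSpace Y] [MulAction Γ Y]

theorem cproj_mem (H : Submodule ℝ F) (v : F) : cproj H v ∈ H := by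
  obtain ⟨w, hw, e⟩ := (H.map (toEuclidean (E := F)).toLinearEquiv.toLinearMap
    ).starProjection_apply_mem (toEuclidean v)
  change toEuclidean.symm ((H.map (toEuclidean (E := F)).toLinearEquiv.toLinearMap).starProjection
    (toEuclidean v)) ∈ H
  rw [← e]
  change toEuclidean.symm (toEuclidean w) ∈ H
  rwa [ContinuousLinearEquiv.symm_apply_apply]
theorem cproj_of_mem {H : Submodule ℝ F} {v : F} (h : v ∈ H) : cproj H v = v := by
  have h1 : toEuclidean v ∈ H.map (toEuclidean (E := F)).toLinearEquiv.toLinearMap := ⟨v, h, rfl⟩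
  change toEuclidean.symm ((H.map (toEuclidean (E := F)).toLinearEquiv.toLinearMap).starProjection
    (toEuclidean v)) = v
  rw [Submodule.starProjection_eq_self_iff.2 h1, ContinuousLinearEquiv.symm_apply_apply]
theorem norm_cproj : ∃ C : ℝ, 1 ≤ C ∧ ∀ H : Submodule ℝ F, ‖cproj H‖ ≤ C := by
  refine ⟨max 1 (‖(toEuclidean (E := F)).symm.toContinuousLinearMap‖ *
    (1 * ‖(toEuclidean (E := F)).toContinuousLinearMap‖)), le_max_left _ _, fun H => ?_⟩
  refine ((ContinuousLinearMap.opNorm_comp_le _ _).trans ?_).trans (le_max_right _ _)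
  exact mul_le_mul_of_nonneg_left ((ContinuousLinearMap.opNorm_comp_le _ _).trans
    (mul_le_mul_of_nonneg_right (Submodule.starProjection_norm_le _) (norm_nonneg _)))
    (norm_nonneg _)
theorem meas_cproj {H : X → Submodule ℝ F} (h : MET.MSub S.μ H) :
    AEMeasurable (fun x => cproj (H x)) S.μ := by
  obtain ⟨A, hA, hH⟩ := h
  have h1 : Measurable fun x => (toEuclidean (E := F)).toContinuousLinearMap ∘L hA.mk A x :=
    (continuous_const.clm_comp continuous_id).measurable.comp hA.measurable_mk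
  refine (MET.aem_comp (aemeasurable_const (b := (toEuclidean (E := F)).symm.toContinuousLinearMap))
    (MET.aem_comp (MET.meas_proj_range h1).aemeasurable
      (aemeasurable_const (b := (toEuclidean (E := F)).toContinuousLinearMap)))).congr ?_
  filter_upwards [hH, hA.ae_eq_mk] with x h2 h3
  have h4 : ((toEuclidean (E := F)).toContinuousLinearMap ∘L hA.mk A x).range =
      (H x).map (toEuclidean (E := F)).toLinearEquiv.toLinearMap := by
    rw [← h2, h3]
    exact LinearMap.range_comp _ _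
  simp only [cproj, h4]

namespace CSec

variable (s : CSec 𝔉) {K k c c' : ℕ} {x y : X} {l : V → Du F}

theorem mjx_contOn (x : X) : ContinuousOn (s.e x) (ball 0 1) :=
  s.cont.comp (f := fun q => (x, q)) (by fun_prop) fun _ h => ⟨trivial, h⟩
theorem mjx_contX {q : V} (hq : q ∈ ball (0 : V) 1) : Continuous fun x => s.e x q :=
  continuousOn_univ.1 (s.cont.comp (f := fun x => (x, q)) (by fun_prop) fun _ _ => ⟨trivial, hq⟩)
theorem mjx_pull_e {q : V} (hq : q ∈ S.dom y x) :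
    𝔉.pull y x l q (s.e y q) = l (S.τ y x q) (s.e x (S.τ y x q)) := by
  rw [s.eqv y x q hq]
  rfl

variable {s} in
theorem Sm.anti (h : s.Sm c' x l) (hc : c ≤ c') : s.Sm c x l := ⟨h.1, h.2.trans (MJx.pow_bigO hc)⟩
variable {s} in
theorem Sm.pull (h : s.Sm c x l) (hp : S.pt y = S.pt x) : s.Sm c y (𝔉.pull y x l) := by
  have h0 := Sys.zero_dom hp
  have h1 := Sys.τ_zero hp
  refine ⟨𝔉.contDiffAt_pull h0 (h1.symm ▸ h.1), ?_⟩
  have h2 : Tendsto (S.τ y x) (𝓝 0) (𝓝 0) := by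
    have := (Sys.continuousAt_τ h0).tendsto
    rwa [h1] at this
  have h3 := (Sys.differentiableAt_τ h0).isBigO_sub
  simp only [h1, sub_zero] at h3
  refine EventuallyEq.trans_isBigO ?_ ((h.2.comp_tendsto h2).trans (h3.norm_norm.pow c))
  filter_upwards [Sys.dom_nhds h0] with q hq using s.mjx_pull_e hq
theorem sm_smul (g : Γ) : s.Sm c (g • x) l ↔ s.Sm c x l := by
  refine and_congr_right fun _ => isBigO_congr ?_ EventuallyEq.rfl
  filter_upwards [ball_mem_nhds (0 : V) one_pos] with q hq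
  rw [s.smul g x q hq]
variable {s} in
theorem Sm.val (h : s.Sm c x l) (hc : 1 ≤ c) : l 0 (s.e x 0) = 0 :=
  h.2.eq_zero_imp.self_of_nhds (by rw [norm_zero, zero_pow (by omega)])

/-- the set of the jets is a subspace -/
def mjx_MJ (K c : ℕ) (x : X) : Submodule ℝ (Jet K V (Du F)) where
  carrier := {j | ∃ l, s.Sm c x l ∧ jet K l 0 = j}
  zero_mem' := ⟨fun _ => 0, ⟨contDiffAt_const, isBigO_zero _ _⟩,
    jet_eq_zero_iff.2 fun i _ => congrFun (iteratedFDeriv_zero_fun (𝕜 := ℝ)) _⟩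
  add_mem' := by
    rintro _ _ ⟨a, ha, rfl⟩ ⟨b, hb, rfl⟩
    exact ⟨fun q => a q + b q, ⟨ha.1.add hb.1, ha.2.add hb.2⟩, jet_add (cda ha.1 K) (cda hb.1 K)⟩
  smul_mem' := by
    rintro t _ ⟨a, ha, rfl⟩
    exact ⟨fun q => t • a q, ⟨ha.1.const_smul t, ha.2.const_mul_left t⟩, jet_smul t (cda ha.1 K)⟩

theorem mem_MJ {j : Jet K V (Du F)} : j ∈ s.MJ K c x ↔ ∃ l, s.Sm c x l ∧ jet K l 0 = j := by
  rw [show s.MJ K c x = s.mjx_MJ K c x from Submodule.span_eq (s.mjx_MJ K c x)]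
  rfl
theorem MJ_smul (g : Γ) : s.MJ K c (g • x) = s.MJ K c x := by
  ext j
  simp only [mem_MJ, sm_smul]
theorem MJ_anti (hc : c ≤ c') : s.MJ K c' x ≤ s.MJ K c x := fun j hj => by
  obtain ⟨l, h, e⟩ := s.mem_MJ.1 hj
  exact s.mem_MJ.2 ⟨l, h.anti hc, e⟩
theorem MJ_trunc (h : k ≤ K) :
    (s.MJ K c x).map (trunc h : Jet K V (Du F) →L[ℝ] Jet k V (Du F)).toLinearMap = s.MJ k c x := by
  ext j
  constructor
  · rintro ⟨a, ha, rfl⟩
    obtain ⟨l, h1, rfl⟩ := s.mem_MJ.1 ha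
    exact s.mem_MJ.2 ⟨l, h1, rfl⟩
  · intro hj
    obtain ⟨l, h1, rfl⟩ := s.mem_MJ.1 hj
    exact ⟨jet K l 0, s.mem_MJ.2 ⟨l, h1, rfl⟩, rfl⟩
theorem MJ_hol {j : Jet K V (Du F)} (h : j ∈ s.MJ K c x) : jet K (poly j) 0 = j := by
  obtain ⟨l, h1, rfl⟩ := s.mem_MJ.1 h
  exact jet_poly_jet (cda h1.1 K)
theorem MJ_jc (hp : S.pt x = S.pt y) {j : Jet K V (Du F)} (h : j ∈ s.MJ K c x) :
    (𝔉.jc0 K).Φ x y j ∈ s.MJ K c y := by
  obtain ⟨l, h1, rfl⟩ := s.mem_MJ.1 h
  refine s.mem_MJ.2 ⟨_, h1.pull hp.symm, ?_⟩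
  have h2 := Sys.τ_zero hp.symm
  have h3 := 𝔉.JT_jet K (l := l) (Sys.zero_dom hp.symm) (h2.symm ▸ h1.1)
  rw [h2] at h3
  exact h3.symm
theorem MJ_rev : s.rev.MJ K c x = s.MJ K c x := rfl

theorem mjx_jc_jc (hp : S.pt x = S.pt y) {j : Jet K V (Du F)} (h : j ∈ s.MJ K c x) :
    (𝔉.jc0 K).Φ y x ((𝔉.jc0 K).Φ x y j) = j :=
  (DFunLike.congr_fun ((𝔉.jc0 K).coc x y x hp rfl) j).trans
    ((𝔉.JT_self K (mem_ball_self one_pos) j).trans (s.MJ_hol h))

theorem mjx_sm_poly {L : ℕ} (h : s.Sm c x l) (hL : c ≤ L) : s.Sm c x (poly (jet L l 0)) := by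
  refine ⟨(contDiff_poly _).contDiffAt, ?_⟩
  have h1 := (flat_taylor (cda h.1 L)).apply
    ((s.mjx_contOn x).continuousAt (ball_mem_nhds (0 : V) one_pos))
  have h2 := IsLittleO.isBigO h1
  simp only [sub_zero, ContinuousLinearMap.sub_apply] at h2
  simpa only [sub_sub_cancel] using h.2.sub (h2.trans (MJx.pow_bigO hL))

theorem mjx_pb_poly (L j : ℕ) : ∃ C : ℕ, ∀ a : Jet L V (Du F), ∀ q ∈ closedBall (0 : V) 1,
    Pb j (poly a) q (C * ‖a‖) := by
  choose C h0 hC using fun i => poly_bound (V := V) (W := Du F) L i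
  obtain ⟨N, hN⟩ := exists_nat_ge (∑ i ∈ Finset.range (j + 1), C i)
  refine ⟨N, fun a q hq => ⟨(contDiff_poly a).contDiffAt, fun i hi => (hC i a q hq).trans ?_⟩⟩
  exact mul_le_mul_of_nonneg_right ((Finset.single_le_sum (f := C) (fun i _ => h0 i)
    (Finset.mem_range.2 (by omega))).trans hN) (norm_nonneg _)

/-- the value of the polynomial on the section -/
def mjx_evL (L : ℕ) (x : X) (z : V) : Jet L V (Du F) →L[ℝ] ℝ :=
  ContinuousLinearMap.apply ℝ ℝ (s.e x z) ∘L polyL L V (Du F) z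

theorem mjx_evL_apply (L : ℕ) (x : X) (z : V) (a : Jet L V (Du F)) :
    s.mjx_evL L x z a = poly a z (s.e x z) :=
  congrArg (fun u : Du F => u (s.e x z)) (polyL_apply a z)

/-- the module is the image of a measurable field of spaces of polynomials -/
theorem mjx_fld (K c : ℕ) : ∃ (H : X → Submodule ℝ (Jet (K + c) V (Du F))) (C : X → ℝ)
    (T : Jet (K + c) V (Du F) →L[ℝ] Jet K V (Du F)), MET.MSub S.μ H ∧ Measurable C ∧
      (∀ a, T a = jet K (poly a) 0) ∧ (∀ x, (H x).map T.toLinearMap = s.MJ K c x) ∧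
      ∀ x, ∀ a ∈ H x, ∀ z ∈ ball (0 : V) (1 / 2), |poly a z (s.e x z)| ≤ C x * ‖a‖ * ‖z‖ ^ c := by
  have hb : ball (0 : V) (1 / 2) ⊆ ball 0 1 := ball_subset_ball one_half_lt_one.le
  obtain ⟨H, C, h1, h2, h3, h4⟩ := MJx.exists_fld S.μ (s.mjx_evL (K + c)) one_half_pos
    (fun z hz a => by
      simp only [mjx_evL_apply]
      exact ((poly a z).continuous.comp (s.mjx_contX (hb hz))).measurable)
    (fun x a => by
      simp only [mjx_evL_apply]
      exact (contDiff_poly a).continuous.continuousOn.clm_apply ((s.mjx_contOn x).mono hb)) c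
  simp only [mjx_evL_apply] at h3 h4
  have hT : ∀ a, (trunc (Nat.le_add_right K c) ∘L JL (K + c) V (Du F) 0) a = jet K (poly a) 0 :=
    fun a => by rw [ContinuousLinearMap.comp_apply, JL_apply, trunc_jet]
  refine ⟨H, C, _, h1, h2, hT, fun x => ?_, h4⟩
  ext j
  rw [mem_MJ]
  constructor
  · rintro ⟨a, ha, rfl⟩
    exact ⟨poly a, ⟨(contDiff_poly a).contDiffAt, MJx.bigO_of_bd one_half_pos (h4 x a ha)⟩,
      (hT a).symm⟩
  · rintro ⟨l, hl, rfl⟩
    refine ⟨jet (K + c) l 0, h3 _ _ ?_, (hT _).trans ?_⟩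
    · obtain ⟨M, hM⟩ := (isCompact_closedBall (0 : V) (1 / 2)).exists_bound_of_continuousOn
        ((contDiff_poly (jet (K + c) l 0)).continuous.continuousOn.clm_apply
          ((s.mjx_contOn x).mono (closedBall_subset_ball one_half_lt_one)))
      exact MJx.bd_of_bigO (s.mjx_sm_poly hl (Nat.le_add_left c K)).2
        fun z hz => hM z (ball_subset_closedBall hz)
    · rw [← trunc_jet (Nat.le_add_right K c), jet_poly_jet (cda hl.1 _), trunc_jet]

theorem msub_MJ (K c : ℕ) : MET.MSub S.μ (s.MJ K c) := by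
  obtain ⟨H, C, T, h1, -, -, h2, -⟩ := s.mjx_fld K c
  exact (h1.map (B := fun _ => T) aemeasurable_const).congr (Eventually.of_forall h2)

theorem mjx_rank (hp : S.pt x = S.pt y) :
    Module.finrank ℝ (s.MJ K c x) ≤ Module.finrank ℝ (s.MJ K c y) :=
  MJx.rank_le ((𝔉.jc0 K).Φ x y) ((𝔉.jc0 K).Φ y x) (fun _ h => s.MJ_jc hp h)
    fun _ h => s.mjx_jc_jc hp h

theorem rank_MJ (P : Prob S Y) (K c : ℕ) :
    ∃ d, ∀ᵐ x ∂S.μ, Module.finrank ℝ (s.MJ K c x) = d :=
  P.rank (s.msub_MJ K c) (Eventually.of_forall fun _ _ h =>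
    le_antisymm (s.mjx_rank h) (s.mjx_rank h.symm)) fun g _ => s.MJ_smul g
theorem stab (P : Prob S Y) : ∃ cK : ℕ → ℕ, Monotone cK ∧ (∀ K, 1 ≤ cK K) ∧
    ∀ K c, cK K ≤ c → ∀ᵐ x ∂S.μ, s.MJ K c x = s.MJ K (cK K) x := by
  choose d hd using s.rank_MJ P
  have key : ∀ K c, Function.argmin (d K) ≤ c →
      ∀ᵐ x ∂S.μ, s.MJ K c x = s.MJ K (Function.argmin (d K)) x := fun K c h => by
    filter_upwards [hd K c, hd K (Function.argmin (d K))] with x h1 h2
    refine Submodule.eq_of_le_of_finrank_le (s.MJ_anti h) ?_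
    rw [h1, h2]
    exact Function.argmin_le (d K) c
  refine ⟨fun K => (Finset.range (K + 1)).sup (fun k => Function.argmin (d k)) + 1,
    fun K K' h => Nat.succ_le_succ (Finset.sup_mono (Finset.range_mono (Nat.succ_le_succ h))),
    fun K => Nat.le_add_left _ _, fun K c h => ?_⟩
  have h1 : Function.argmin (d K) ≤
      (Finset.range (K + 1)).sup (fun k => Function.argmin (d k)) + 1 :=
    (Finset.le_sup (f := fun k => Function.argmin (d k)) (Finset.self_mem_range_succ K)).trans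
      (Nat.le_succ _)
  filter_upwards [key K c (h1.trans h), key K _ h1] with x h2 h3
  exact h2.trans h3.symm

variable {s} in
theorem Wit.mjx_mono {n n' : ℕ} (h : s.Wit K c n x) (hn : n ≤ n') : s.Wit K c n' x := fun j hj => by
  obtain ⟨l, h1, h2⟩ := h j hj
  have h3 : (n : ℝ) * ‖j‖ ≤ n' * ‖j‖ :=
    mul_le_mul_of_nonneg_right (Nat.cast_le.2 hn) (norm_nonneg _)
  refine ⟨l, h1, fun z hz => ?_⟩
  obtain ⟨h4, h5⟩ := h2 z (ball_subset_ball (rad_anti hn) hz)
  exact ⟨h4.le h3, h5.trans (mul_le_mul_of_nonneg_right h3 (by positivity))⟩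

theorem tight_wit (K c : ℕ) : S.Tight (s.Wit K c) := by
  obtain ⟨H, C, T, h1, h2, h3, h4, h5⟩ := s.mjx_fld K c
  obtain ⟨C0, h6⟩ := mjx_pb_poly (V := V) (F := F) (K + c) (K + 1)
  refine (Sys.tight_lift h1 (M := fun _ => T) aemeasurable_const).imp₂
    (Sys.tight_le h2.aemeasurable) fun n n' => ⟨(C0 + n') * n + 1,
      Eventually.of_forall fun x a b j hj => ?_⟩
  rw [← h4] at hj
  obtain ⟨v, hv, rfl⟩ := hj
  obtain ⟨w, hw, e, hn⟩ := a v hv
  refine ⟨poly w, (h3 w).symm.trans e, fun z hz => ?_⟩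
  have hz' : z ∈ ball (0 : V) (1 / 2) :=
    ball_subset_ball ((rad_anti (Nat.le_add_left 1 _)).trans_eq (by norm_num [rad])) hz
  change _ ≤ n * ‖T v‖ at hn
  change Pb _ _ _ (_ * ‖T v‖) ∧ _ ≤ _ * ‖T v‖ * _
  have t0 := norm_nonneg (T v)
  have t1 : (0 : ℝ) ≤ C0 := Nat.cast_nonneg _
  have t2 : (0 : ℝ) ≤ n' := Nat.cast_nonneg _
  have t3 : (0 : ℝ) ≤ n * ‖T v‖ := by positivity
  refine ⟨(h6 w z (closedBall_subset_closedBall one_half_lt_one.le
    (ball_subset_closedBall hz'))).le ?_, (h5 x w hw z hz').trans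
      (mul_le_mul_of_nonneg_right ?_ (by positivity))⟩
  · push_cast
    nlinarith [mul_le_mul_of_nonneg_left hn t1, mul_nonneg t2 t3]
  · push_cast
    nlinarith [mul_le_mul b hn (norm_nonneg _) t2, mul_nonneg t1 t3]

theorem port_wit (K c : ℕ) : S.Port (s.Wit K c) := by
  refine ⟨fun n g x h j hj => ?_, fun n n' x hn h => h.mjx_mono hn, fun D n => ?_⟩
  · rw [MJ_smul] at hj
    obtain ⟨l, h1, h2⟩ := h j hj
    refine ⟨l, h1, fun z hz => ?_⟩
    rw [s.smul g x z (ball_subset_ball (rad_le_one n) hz)]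
    exact h2 z hz
  obtain ⟨M, hM0, hM⟩ := S.unif_pair (𝔉.jc0 K).cont (𝔉.jc0 K).smul D
  obtain ⟨a, ha⟩ := S.unif_ckB Sys.jc_τ (fun g x y q hq => Sys.τ_smul g hq) D (K + 1)
  obtain ⟨b, hb⟩ := S.unif_ckB 𝔉.jc 𝔉.smul D (K + 1)
  obtain ⟨m, hm⟩ := exists_rad_le (div_pos (rad_pos n) (show (0 : ℝ) < a + 1 by positivity))
  obtain ⟨m', hm'⟩ := exists_nat_ge (max
    (2 ^ (K + 1) * (((K + 1).factorial : ℝ) * (n * M) * max 1 (a : ℝ) ^ (K + 1) * b))
    (n * M * a ^ c))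
  refine ⟨max (max a b) (max m m'), fun x y hp hD h j hj => ?_⟩
  rw [dist_comm] at hD
  obtain ⟨l, h1, h2⟩ := h _ (s.MJ_jc hp.symm hj)
  obtain ⟨a1, a2⟩ := ha y x hD hp.symm
  obtain ⟨-, b2⟩ := hb y x hD hp.symm
  have t0 := Sys.τ_zero hp.symm
  have pτ : ∀ q ∈ ball (0 : V) (rad a), Pb (K + 1) (S.τ y x) q a := fun q hq =>
    ⟨Sys.contDiffAt_τ (a1 hq), fun i hi => a2.bd i hi q hq⟩
  have hτ : ∀ q ∈ ball (0 : V) (rad a), ‖S.τ y x q‖ ≤ a * ‖q‖ := fun q hq => by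
    have := Van.norm_le (x := (0 : V)) (K := a) 1 (f := S.τ y x) (fun i hi => by
      obtain rfl : i = 0 := by omega
      ext v
      simp [t0]) (fun u hu => (pτ u hu).mono (by omega) le_rfl) q hq
    simpa using this
  have hj' : ‖(𝔉.jc0 K).Φ y x j‖ ≤ M * ‖j‖ :=
    ((𝔉.jc0 K).Φ y x).le_of_opNorm_le (hM y x hD hp.symm) j
  have hN : (m' : ℝ) ≤ (max (max a b) (max m m') : ℕ) :=
    Nat.cast_le.2 ((le_max_right _ _).trans (le_max_right _ _))
  have hnj : (n : ℝ) * ‖(𝔉.jc0 K).Φ y x j‖ ≤ n * M * ‖j‖ := by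
    rw [mul_assoc]
    exact mul_le_mul_of_nonneg_left hj' (Nat.cast_nonneg _)
  refine ⟨𝔉.pull y x l, ?_, fun z hz => ?_⟩
  · have h3 := 𝔉.JT_jet K (l := l) (Sys.zero_dom hp.symm)
      (t0.symm ▸ (h2 0 (mem_ball_self (rad_pos n))).1.sm)
    rw [t0, h1] at h3
    exact h3.symm.trans (s.mjx_jc_jc hp.symm hj)
  have za : z ∈ ball (0 : V) (rad a) :=
    ball_subset_ball (rad_anti ((le_max_left _ _).trans (le_max_left _ _))) hz
  have zb : z ∈ ball (0 : V) (rad b) :=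
    ball_subset_ball (rad_anti ((le_max_right _ _).trans (le_max_left _ _))) hz
  have zm : ‖z‖ < rad n / (a + 1) := (mem_ball_zero_iff.1 hz).trans_le
    (hm _ ((le_max_left _ _).trans (le_max_right _ _)))
  have zτ : S.τ y x z ∈ ball (0 : V) (rad n) := by
    rw [lt_div_iff₀ (by positivity)] at zm
    rw [mem_ball_zero_iff]
    nlinarith [hτ z za, norm_nonneg z]
  obtain ⟨h3, h4⟩ := h2 _ zτ
  constructor
  · have pA : Pb (K + 1) (𝔉.A y x) z b :=
      ⟨𝔉.jc.contDiffAt (p := ((y, x), z)) (a1 za), fun i hi => b2.bd i hi z zb⟩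
    refine (((h3.le hnj).comp' (pτ z za)).compL pA).le ?_
    refine le_trans (le_of_eq ?_) (mul_le_mul_of_nonneg_right
      ((le_max_left _ _).trans (hm'.trans hN)) (norm_nonneg j))
    ring
  · rw [s.mjx_pull_e (a1 za)]
    refine h4.trans ((mul_le_mul hnj (pow_le_pow_left₀ (norm_nonneg _) (hτ z za) c)
      (by positivity) (by positivity)).trans ?_)
    refine le_trans (le_of_eq ?_) (mul_le_mul_of_nonneg_right (mul_le_mul_of_nonneg_right
      ((le_max_right _ _).trans (hm'.trans hN)) (norm_nonneg j)) (by positivity))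
    ring
theorem meas_val (c : ℕ) {β : X → Du F} (hβ : Measurable β) :
    NullMeasurableSet {x | ∃ l, s.Sm c x l ∧ l 0 = β x} S.μ := by
  obtain ⟨p, -, h1, -, -, h2⟩ := ((s.msub_MJ 0 c).map (B := fun _ => polyL 0 V (Du F) 0)
    aemeasurable_const).exists_proj
  have hc : IsClosed {q : (Du F →L[ℝ] Du F) × Du F | q.1 q.2 = q.2} :=
    isClosed_eq (by fun_prop) continuous_snd
  refine ((h1.prodMk hβ) hc.measurableSet).nullMeasurableSet.congr (eventuallyEq_set.2 ?_)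
  filter_upwards [h2] with x hx
  change p x (β x) = β x ↔ ∃ l, s.Sm c x l ∧ l 0 = β x
  constructor
  · intro h
    obtain ⟨j, hj, e⟩ := hx.1 (β x)
    obtain ⟨l, hl, rfl⟩ := s.mem_MJ.1 hj
    exact ⟨l, hl, (poly_jet_zero (k := 0) l 0).symm.trans
      ((polyL_apply _ _).symm.trans (e.trans h))⟩
  · rintro ⟨l, hl, e⟩
    exact hx.2 _ ⟨jet 0 l 0, s.mem_MJ.2 ⟨l, hl, rfl⟩,
      (polyL_apply _ _).trans ((poly_jet_zero l 0).trans e)⟩

end CSec

end Vale.Agent.P207Z
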