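import Vale.Agent.P207Z.Char.Hull
import Vale.Agent.P207Z.Char.B4

/-!
# P207: the hull of the Margulis section (block CH-D)
-/

set_option linter.all false

open Set Filter Topology Metric MeasureTheory Asymptotics
open scoped ContDiff

noncomputable section

namespace Vale.Agent.P207Z

open Vale.Agent.P207.N3 (JC)
open Lift

variable {Γ X B E V : Type} [Group Γ] [Countable Γ] [MetricSpace X] [ProperSpace X]
  [MulAction Γ X] [IsIsometricSMul Γ X] [MeasurableSpace X] [BorelSpace X]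
  [TopologicalSpace B] [CompactSpace B] [T2Space B] [SecondCountableTopology B] [MulAction Γ B]
  [ContinuousConstSMul Γ B] [MeasurableSpace B] [BorelSpace B]
  [NormedAddCommGroup E] [InnerProductSpace ℝ E] [FiniteDimensional ℝ E]
  [NormedAddCommGroup V] [NormedSpace ℝ V] [FiniteDimensional ℝ V]
  {F : Type} [NormedAddCommGroup F] [NormedSpace ℝ F] [FiniteDimensional ℝ F]
  {S : Sys Γ X B E V} {𝔉 : Bun S F} {Y : Type} [MeasurableSpace Y] [MulAction Γ Y]

theorem B4.alt_det {m : ℕ} (b : Module.Basis (Fin m) ℝ E) (L : E →L[ℝ] V) (v : Fin m → E)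
    (a : V [⋀^Fin m]→L[ℝ] ℝ) : (a fun i => L (v i)) = b.det v * a fun i => L (b i) := by
  have h := congrArg (fun f : E [⋀^Fin m]→ₗ[ℝ] ℝ => f v)
    ((a.compContinuousLinearMap L).toAlternatingMap.eq_smul_basis_det b)
  exact h.trans (mul_comm _ _)

/-- the dual section which sends `a, t` to `a (iU b) - t es (iU b)` -/
def Marg.usec {m : ℕ} {b : Module.Basis (Fin m) ℝ E} (M : Marg S b) : USec M.sec.toC where
  β y u := ContinuousAlternatingMap.apply ℝ V ℝ (fun i => S.iU (b i)) ∘L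
      ContinuousLinearMap.fst ℝ _ ℝ
    - (M.es y (S.iU u) fun i => S.iU (b i)) • ContinuousLinearMap.snd ℝ _ ℝ
  sm y u hu := contDiffAt_const.sub
    (((M.es_U y).contDiffAt (isOpen_ball.mem_nhds hu)).smul contDiffAt_const)
  kill y u hu := by
    show (M.es y (S.iU u) fun i => S.iU (b i)) - (M.es y (S.iU u) fun i => S.iU (b i)) * 1 = 0
    rw [mul_one, sub_self]
  smul g y := by rw [map_zero, M.es_smul g y 0 (mem_ball_self one_pos)]
  eqv x y h := by
    have h0 := Sys.zero_dom h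
    have h1 := Sys.zero_dom h.symm
    let v : Fin m → E := fun i => S.pU (fderiv ℝ (S.τ y x) 0 (S.iU (b i)))
    have h2 : ∀ a : V [⋀^Fin m]→L[ℝ] ℝ, (a fun i => fderiv ℝ (S.τ y x) 0 (S.iU (b i)))
        = b.det v * a fun i => S.iU (b i) := fun a => by
      rw [← B4.alt_det b S.iU v a]
      exact congrArg a (funext fun i => (S.iU_pU
        (Sys.pS_fderiv_τ (congrArg Prod.fst h.symm) h1 (map_zero _) _)).symm)
    have h3 := M.es_eqv x y 0 h0
    rw [Sys.τ_zero h] at h3
    refine ⟨M.f x y 0 * b.det v, ContinuousLinearMap.ext fun a => ?_⟩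
    show M.f x y 0 * (a.1 fun i => fderiv ℝ (S.τ y x) (S.τ x y 0) (S.iU (b i)))
      - (M.es y (S.iU 0) fun i => S.iU (b i)) * a.2 = M.f x y 0 * b.det v *
        ((a.1 fun i => S.iU (b i)) - (M.es x (S.iU 0) fun i => S.iU (b i)) * a.2)
    have h4 : (M.es y 0 fun i => S.iU (b i))
        = M.f x y 0 * M.es x 0 fun i => fderiv ℝ (S.τ y x) 0 (S.iU (b i)) := by
      rw [h3]
      rfl
    rw [map_zero, Sys.τ_zero h, h4, h2, h2]
    ring
  meas := by
    have h : Continuous fun y => M.es y (S.iU 0) := M.es_cont.comp_continuous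
      (f := fun y => (y, S.iU 0)) (by fun_prop) fun y => ⟨trivial, by simp⟩
    exact (continuous_const.sub (((ContinuousAlternatingMap.apply ℝ V ℝ
      fun i => S.iU (b i)).continuous.comp h).smul continuous_const)).measurable

theorem Marg.char_seq {m : ℕ} {b : Module.Basis (Fin m) ℝ E} (M : Marg S b) (P : Prob S Y) :
    ∃ W : SEq M.bun fun k => Jet k V (Du ((V [⋀^Fin m]→L[ℝ] ℝ) × ℝ)) →L[ℝ] ℝ,
      (∀ x, (M.es x 0, (1 : ℝ)) ∈ W.H x) ∧ ∀ᵐ x ∂S.μ, ∀ a ∈ W.H x,
        a.1 (fun i => S.iU (b i)) = a.2 * M.es x 0 fun i => S.iU (b i) := by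
  obtain ⟨c, W, hc, h⟩ := M.sec.toC.hull P
  refine ⟨W, fun x => (h x _).2 fun l hl => hl.val hc,
    (M.sec.b4 P M.usec c).mono fun x ⟨l, h1, h2⟩ a ha => ?_⟩
  have h3 := (h x a).1 ha l h1
  rw [h2] at h3
  have h4 : (a.1 fun i => S.iU (b i)) - (M.es x (S.iU 0) fun i => S.iU (b i)) * a.2 = 0 := h3
  rw [map_zero] at h4
  linarith

end Vale.Agent.P207Z
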